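import Vale.Agent.P181.Z.H582.WGlue
import Vale.Agent.P181.Z.H463.Ideal
import Vale.Agent.P181.Z.H483.Bar
import Vale.Agent.P181.R2.H207.Final
import Vale.Agent.P181.R2.H684.W10

/-!
# The run from the shape of the pigeonhole to `lam` inside the kernel of the Foulkes-Howe map
-/

set_option autoImplicit false

namespace Vale.Agent.P181.Z.H582

open Finset Module
open Vale.Agent.P181 Vale.Agent.P181.H280 Vale.Agent.P181.Z463 Vale.Agent.P181.FR
open Vale.Agent.P181.Z.H483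

/-- The Pieri step inside the kernel, for `n + 3` rows. -/
def PieH (n a : ℕ) (B c : ℕ → ℕ) : Prop :=
  ∀ j, 1 ≤ j → (hj : j < n + 2) → ∀ (k b : ℕ) (θ : Fin (n + 3) → ℕ),
    (∀ l, (hl : l + 1 < n + 2) → θ ⟨l + 2, by omega⟩ ≤ θ ⟨l + 1, by omega⟩) →
    θ ⟨j + 1, by omega⟩ + k ≤ θ ⟨j, by omega⟩ →
    finrank ℂ (KH b a (n + 3) θ) ≤ (k + 1) ^ (n + 3) *
      finrank ℂ (KH (b + k * B j) a (n + 3)
        (θ + k • rho (n + 2) (c j) (a * B j - ((j + 1) * c j + 1)) j))

theorem sum_rho {h : ℕ} (c r j : ℕ) (hj : j < h) :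
    ∑ i, rho h c r j i = r + ((j + 1) * c + 1) := by
  have h1 : ∀ h, j + 1 ≤ h →
      ∑ l ∈ Finset.range h, (if l < j then c else if l = j then c + 1 else 0)
        = (j + 1) * c + 1 := by
    intro h hh
    induction h, hh using Nat.le_induction with
    | base =>
      rw [Finset.sum_range_succ, if_neg (lt_irrefl j), if_pos rfl]
      have : ∑ l ∈ Finset.range j, (if l < j then c else if l = j then c + 1 else 0)
          = ∑ _l ∈ Finset.range j, c := by
        refine Finset.sum_congr rfl fun l hl => ?_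
        rw [if_pos (Finset.mem_range.1 hl)]
      rw [this, Finset.sum_const, Finset.card_range, smul_eq_mul]
      ring
    | succ h hh ih =>
      rw [Finset.sum_range_succ, ih, if_neg (by omega), if_neg (by omega), add_zero]
  rw [Fin.sum_univ_succ]
  congr 1
  rw [← h1 h hj, Finset.sum_range]
  refine Finset.sum_congr rfl fun l _ => ?_
  unfold rho
  simp only [Fin.val_succ, Nat.add_eq_zero_iff, one_ne_zero, and_false, if_false]
  by_cases h2 : (l : ℕ) < j
  · rw [if_pos (by omega), if_pos h2]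
  · rw [if_neg (by omega), if_neg h2]
    by_cases h3 : (l : ℕ) = j
    · rw [if_pos (by omega), if_pos h3]
    · rw [if_neg (by omega), if_neg h3]

theorem sum_Wm {h : ℕ} (c r k : ℕ → ℕ) (θ : Fin (h + 1) → ℕ) (m : ℕ) (hm : m ≤ h) :
    ∑ i, Wm h c r k θ m i
      = ∑ i, θ i + ∑ j ∈ Finset.Ico 1 m, k j * (r j + ((j + 1) * c j + 1)) := by
  unfold Wm
  simp only [Pi.add_apply, Finset.sum_apply, Pi.smul_apply, smul_eq_mul]
  rw [Finset.sum_add_distrib, Finset.sum_comm]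
  congr 1
  refine Finset.sum_congr rfl fun j hj => ?_
  rw [Finset.mem_Ico] at hj
  rw [← Finset.mul_sum, sum_rho (c j) (r j) j (by omega)]

/-- **The run inside the kernel**, full weights. -/
theorem wall_run_KH {n N1 a b : ℕ} (B c : ℕ → ℕ) (hPie : PieH n a B c)
    (hcB : ∀ j, j < n + 2 → (j + 1) * c j + 1 ≤ a * B j) (ha : n + 3 ≤ a)
    (θ1 lam : Fin (n + 3) → ℕ) (hθ1 : ∑ i, θ1 i = a * N1) (hlam : ∑ i, lam i = a * b)
    (hanti : ∀ l, (hl : l + 1 < n + 2) → lam ⟨l + 2, by omega⟩ ≤ lam ⟨l + 1, by omega⟩)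
    (k ν : ℕ → ℕ) (hk0 : k 0 = 0)
    (hrow : ∀ l, (hl : l < n + 2) → lam ⟨l + 1, by omega⟩
      = θ1 ⟨l + 1, by omega⟩ + ν l + k l + ∑ i ∈ Finset.Ico l (n + 2), c i * k i)
    (hν : ∀ l, l + 1 < n + 2 → ν (l + 1) ≤ ν l) (hG : ν 1 + ((n + 3) ^ 3 + 3) ≤ ν 0)
    (Bν : ℕ) (hbud : N1 + Bν + ∑ i ∈ Finset.Ico 1 (n + 2), k i * B i = b)
    (hcart : (n + 3) * ν 0 + 4 * (n + 3) ^ 2 * a ≤ (a - 1) * Bν) :
    finrank ℂ (KH N1 a (n + 3) θ1)
      ≤ ((b + 1) ^ (n + 3)) ^ (n + 1) * finrank ℂ (KH b a (n + 3) lam) := by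
  by_cases hz : finrank ℂ (KH N1 a (n + 3) θ1) = 0
  · rw [hz]
    exact Nat.zero_le _
  -- `θ1` is a partition
  obtain ⟨x, hx, hx0⟩ : ∃ x ∈ KH N1 a (n + 3) θ1, x ≠ 0 := by
    by_contra hc
    push Not at hc
    apply hz
    have : KH N1 a (n + 3) θ1 = ⊥ := by
      rw [eq_bot_iff]
      intro x hx
      rw [Submodule.mem_bot]
      exact hc x hx
    rw [this, finrank_bot]
  have hθanti : ∀ i j : Fin (n + 3), i ≤ j → θ1 j ≤ θ1 i := hw_antitone hx.2 hx0
  -- the Cartan factor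
  have hν' : ∀ l m, l ≤ m → m < n + 2 → ν m ≤ ν l := by
    intro l m hlm
    induction m, hlm using Nat.le_induction with
    | base => intro _; exact le_rfl
    | succ m hm ih =>
      intro hm2
      exact (hν m hm2).trans (ih (by omega))
  have hsν : ∑ l : Fin (n + 2), ν l ≤ (n + 2) * ν 0 := by
    calc ∑ l : Fin (n + 2), ν l ≤ ∑ _l : Fin (n + 2), ν 0 :=
          Finset.sum_le_sum fun l _ => hν' 0 l (Nat.zero_le _) l.isLt
      _ = (n + 2) * ν 0 := by simp
  have ha1 : (a - 1) * Bν + Bν = a * Bν := by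
    obtain ⟨a', rfl⟩ : ∃ a', a = a' + 1 := ⟨a - 1, by omega⟩
    simp only [Nat.add_sub_cancel]
    ring
  have hexp : (n + 3) * ν 0 = (n + 2) * ν 0 + ν 0 := by ring
  have hle : ∑ l : Fin (n + 2), ν l ≤ a * Bν := by omega
  set mu : Fin (n + 3) → ℕ := Fin.cons (a * Bν - ∑ l : Fin (n + 2), ν l)
    (fun l : Fin (n + 2) => ν l) with hmu
  have hmu0 : mu 0 = a * Bν - ∑ l : Fin (n + 2), ν l := rfl
  have hmus : ∀ l, (hl : l < n + 2) → mu ⟨l + 1, by omega⟩ = ν l := fun l hl => rfl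
  have hmusum : ∑ i, mu i = a * Bν := by
    rw [Fin.sum_univ_succ, hmu0]
    have : ∀ l : Fin (n + 2), mu l.succ = ν l := fun l => rfl
    simp only [this]
    omega
  have hpos : Pos Bν a (n + 3) mu := by
    apply pos_of mu hmusum ha
    · have e1 : mu 1 = ν 0 := rfl
      rw [e1, hmu0]
      omega
    · have e1 : mu 1 = ν 0 := rfl
      have e2 : mu 2 = ν 1 := rfl
      rw [e1, e2]
      omega
    · intro i j hi hij
      have hi1 : 1 ≤ (i : ℕ) := by
        have := Fin.le_def.1 hi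
        simpa using this
      have hij' : (i : ℕ) ≤ j := hij
      have hi' : i = ⟨(i - 1 : ℕ) + 1, by have := i.isLt; omega⟩ :=
        Fin.ext (by show (i : ℕ) = (i : ℕ) - 1 + 1; omega)
      have hj' : j = ⟨(j - 1 : ℕ) + 1, by have := j.isLt; omega⟩ :=
        Fin.ext (by show (j : ℕ) = (j : ℕ) - 1 + 1; omega)
      have hj2 : (j : ℕ) - 1 < n + 2 := by have := j.isLt; omega
      have hi2 : (i : ℕ) - 1 < n + 2 := by have := i.isLt; omega
      rw [hi', hj']
      show mu ⟨((j : ℕ) - 1) + 1, _⟩ ≤ mu ⟨((i : ℕ) - 1) + 1, _⟩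
      rw [hmus _ hj2, hmus _ hi2]
      exact hν' _ _ (by omega) hj2
  have h1 : finrank ℂ (KH N1 a (n + 3) θ1) ≤ finrank ℂ (KH (N1 + Bν) a (n + 3) (θ1 + mu)) :=
    finrank_KH_mul hpos
  -- the Pieri steps
  have hB1 : ∀ j, j < n + 2 → 1 ≤ B j := by
    intro j hj
    have := hcB j hj
    rcases Nat.eq_zero_or_pos (B j) with h | h
    · rw [h, mul_zero] at this
      omega
    · exact h
  have hkb : ∀ j, 1 ≤ j → j < n + 2 → k j ≤ b := by
    intro j hj1 hj
    have h2 : k j * B j ≤ ∑ i ∈ Finset.Ico 1 (n + 2), k i * B i :=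
      Finset.single_le_sum (f := fun i => k i * B i) (fun _ _ => Nat.zero_le _)
        (Finset.mem_Ico.2 ⟨hj1, hj⟩)
    have h3 : k j ≤ k j * B j := Nat.le_mul_of_pos_right _ (hB1 j hj)
    omega
  have hchain := wchain (n + 2) c (fun j => a * B j - ((j + 1) * c j + 1)) B k hk0
    ((b + 1) ^ (n + 3)) (fun b θ => finrank ℂ (KH b a (n + 3) θ))
    (by
      intro j hj1 hj b' θ hθ hadm
      refine (hPie j hj1 hj (k j) b' θ hθ hadm).trans ?_
      apply Nat.mul_le_mul_right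
      exact Nat.pow_le_pow_left (by have := hkb j hj1 hj; omega) _)
    (N1 + Bν) (θ1 + mu) lam
    (by
      intro l hl
      have e1 : (θ1 + mu) ⟨l + 2, by omega⟩ = θ1 ⟨l + 2, by omega⟩ + ν (l + 1) := rfl
      have e2 : (θ1 + mu) ⟨l + 1, by omega⟩ = θ1 ⟨l + 1, by omega⟩ + ν l := rfl
      rw [e1, e2]
      have h2 := hν l hl
      have h3 : θ1 ⟨l + 2, by omega⟩ ≤ θ1 ⟨l + 1, by omega⟩ :=
        hθanti _ _ (Fin.mk_le_mk.2 (by omega))
      omega)
    hanti
    (by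
      intro l hl
      have e2 : (θ1 + mu) ⟨l + 1, by omega⟩ = θ1 ⟨l + 1, by omega⟩ + ν l := rfl
      rw [e2]
      exact hrow l hl)
    (by
      -- the first row, from the totals
      have hrowW : ∀ l : Fin (n + 2), Wm (n + 2) c (fun j => a * B j - ((j + 1) * c j + 1)) k
          (θ1 + mu) (n + 2) l.succ = lam l.succ := by
        intro l
        have h2 := Wm_row (n + 2) c (fun j => a * B j - ((j + 1) * c j + 1)) k hk0 (θ1 + mu)
          (n + 2) l (by omega) l.isLt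
        have h3 := hrow l l.isLt
        rw [if_pos l.isLt] at h2
        have e1 : l.succ = ⟨(l : ℕ) + 1, by have := l.isLt; omega⟩ := rfl
        rw [e1, h2]
        have h4 : lam ⟨(l : ℕ) + 1, by have := l.isLt; omega⟩
          = θ1 ⟨(l : ℕ) + 1, by have := l.isLt; omega⟩ + ν l + k l
            + ∑ i ∈ Finset.Ico (l : ℕ) (n + 2), c i * k i := h3
        rw [h4]
        rfl
      have hsumW := sum_Wm c (fun j => a * B j - ((j + 1) * c j + 1)) k (θ1 + mu) (n + 2)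
        (le_refl (n + 2))
      have hs1 : ∑ i, (θ1 + mu) i = a * N1 + a * Bν := by
        simp only [Pi.add_apply]
        rw [Finset.sum_add_distrib, hθ1, hmusum]
      have hs2 : ∑ j ∈ Finset.Ico 1 (n + 2), k j * (a * B j - ((j + 1) * c j + 1)
          + ((j + 1) * c j + 1)) = a * ∑ j ∈ Finset.Ico 1 (n + 2), k j * B j := by
        rw [Finset.mul_sum]
        refine Finset.sum_congr rfl fun j hj => ?_
        rw [Finset.mem_Ico] at hj
        rw [Nat.sub_add_cancel (hcB j hj.2)]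
        ring
      rw [hs1, hs2, Fin.sum_univ_succ] at hsumW
      rw [Finset.sum_congr rfl fun l _ => hrowW l] at hsumW
      rw [Fin.sum_univ_succ, ← hbud] at hlam
      have e0 : Wm (n + 2) c (fun j => a * B j - ((j + 1) * c j + 1)) k (θ1 + mu) (n + 2) 0
          = (θ1 + mu) 0 + ∑ j ∈ Finset.Ico 1 (n + 2), k j * (a * B j - ((j + 1) * c j + 1)) := by
        unfold Wm
        rw [Pi.add_apply, Finset.sum_apply]
        rfl
      rw [← e0]
      have h5 : a * (N1 + Bν + ∑ i ∈ Finset.Ico 1 (n + 2), k i * B i)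
        = a * N1 + a * Bν + a * ∑ j ∈ Finset.Ico 1 (n + 2), k j * B j := by ring
      omega)
  rw [hbud] at hchain
  have e : n + 2 - 1 = n + 1 := rfl
  rw [e] at hchain
  exact h1.trans hchain

/-- **The run from the plethysm multiplicity** (pigeonhole shape `θ`) to the kernel. -/
theorem wall_run {n N e a b : ℕ} (B c : ℕ → ℕ) (hPie : PieH n a B c)
    (hcB : ∀ j, j < n + 2 → (j + 1) * c j + 1 ≤ a * B j) (ha : n + 3 ≤ a)
    (κ : Fin (n + 3) → ℕ) (y : Pleth e a (n + 3)) (hy : y ∈ KH e a (n + 3) κ) (hy0 : y ≠ 0)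
    (hκ : ∑ i, κ i = a * e)
    (θ : Fin (n + 2) → ℕ) (hθ : ∑ i, θ i ≤ N * a) (lam : Fin (n + 2) → ℕ)
    (hlam : ∑ i, lam i ≤ b * a) (hanti : Antitone lam)
    (k ν : ℕ → ℕ) (hk0 : k 0 = 0)
    (hrow : ∀ l : Fin (n + 2), lam l
      = θ l + κ l.succ + ν l + k l + ∑ i ∈ Finset.Ico (l : ℕ) (n + 2), c i * k i)
    (hν : ∀ l, l + 1 < n + 2 → ν (l + 1) ≤ ν l) (hG : ν 1 + ((n + 3) ^ 3 + 3) ≤ ν 0)
    (Bν : ℕ) (hbud : N + e + Bν + ∑ i ∈ Finset.Ico 1 (n + 2), k i * B i = b)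
    (hcart : (n + 3) * ν 0 + 4 * (n + 3) ^ 2 * a ≤ (a - 1) * Bν) :
    fP N a θ ≤ ((b + 1 : ℕ) : ℝ) ^ ((n + 3) * (n + 1))
      * (finrank ℂ (KH b a (n + 3) (full b a lam)) : ℝ) := by
  rw [fP, if_pos hθ]
  have h1 : plethMult N a (n + 3) (full N a θ)
      ≤ finrank ℂ (KH (N + e) a (n + 3) (full N a θ + κ)) := plethMult_le_KH hy hy0
  have h2 := wall_run_KH (N1 := N + e) (b := b) B c hPie hcB ha (full N a θ + κ) (full b a lam)
    (by
      simp only [Pi.add_apply]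
      rw [Finset.sum_add_distrib, hκ]
      have := sum_up hθ
      unfold full
      rw [this]
      ring)
    (by
      have := sum_up hlam
      unfold full
      rw [this]
      ring)
    (by
      intro l hl
      show lam ⟨l + 1, hl⟩ ≤ lam ⟨l, by omega⟩
      exact hanti (Fin.mk_le_mk.2 (by omega)))
    k ν hk0
    (by
      intro l hl
      exact hrow ⟨l, hl⟩)
    hν hG Bν hbud hcart
  have h3 : plethMult N a (n + 3) (full N a θ)
      ≤ ((b + 1) ^ (n + 3)) ^ (n + 1) * finrank ℂ (KH b a (n + 3) (full b a lam)) :=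
    h1.trans h2
  rw [← pow_mul] at h3
  have h4 : ((plethMult N a (n + 3) (full N a θ) : ℕ) : ℝ)
      ≤ (((b + 1) ^ ((n + 3) * (n + 1)) * finrank ℂ (KH b a (n + 3) (full b a lam)) : ℕ) : ℝ) := by
    exact_mod_cast h3
  refine h4.trans (le_of_eq ?_)
  push_cast
  ring

end Vale.Agent.P181.Z.H582
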