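import Mathlib

/-!
# Finite-form Chernoff bounds for multisets of letters
-/

namespace Vale.Agent.P181.Z.H582

open Finset

section gen
variable {α : Type*}

/-- Splitting a multiset at one letter. -/
theorem split_letter [DecidableEq α] (v : α) (s : Multiset α) :
    Multiset.replicate (s.count v) v + s.filter (fun u => u ≠ v) = s := by
  have h := Multiset.filter_add_not (fun u => u = v) s
  rw [Multiset.filter_eq'] at h
  exact h

theorem prod_split [DecidableEq α] (y : α → ℝ) (v : α) (s : Multiset α) :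
    (s.map y).prod = y v ^ (s.count v) * ((s.filter (fun u => u ≠ v)).map y).prod := by
  conv_lhs => rw [← split_letter v s]
  rw [Multiset.map_add, Multiset.prod_add, Multiset.map_replicate, Multiset.prod_replicate]

theorem prod_map_nonneg (y : α → ℝ) (s : Multiset α) (h : ∀ v ∈ s, 0 ≤ y v) :
    0 ≤ (s.map y).prod := by
  apply Multiset.prod_nonneg
  intro r hr
  obtain ⟨v, hv, rfl⟩ := Multiset.mem_map.1 hr
  exact h v hv

/-- The generating function bound: for every finite set of multisets over the finite letter set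
`L`, the sum of the products of the weights is at most `∏ 1 / (1 - y v)`. -/
theorem mgf_le (L : Finset α) (y : α → ℝ) (hy : ∀ v ∈ L, 0 ≤ y v ∧ y v < 1)
    (S : Finset (Multiset α)) (hS : ∀ s ∈ S, ∀ v ∈ s, v ∈ L) :
    ∑ s ∈ S, (s.map y).prod ≤ ∏ v ∈ L, (1 - y v)⁻¹ := by
  classical
  induction L using Finset.induction_on generalizing S with
  | empty =>
    have hsub : S ⊆ {0} := by
      intro s hs
      rw [Finset.mem_singleton]
      refine Multiset.eq_zero_of_forall_notMem fun v hv => ?_
      exact absurd (hS s hs v hv) (Finset.notMem_empty v)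
    calc ∑ s ∈ S, (s.map y).prod ≤ ∑ s ∈ ({0} : Finset (Multiset α)), (s.map y).prod := by
          apply Finset.sum_le_sum_of_subset_of_nonneg hsub
          intro s hs _
          rw [Finset.mem_singleton] at hs
          subst hs
          simp
      _ = 1 := by simp
      _ ≤ _ := by simp
  | insert v L hv ih =>
    rw [Finset.prod_insert hv]
    have hyv := hy v (Finset.mem_insert_self v L)
    have hyL : ∀ u ∈ L, 0 ≤ y u ∧ y u < 1 := fun u hu => hy u (Finset.mem_insert_of_mem hu)
    set K := S.sup (fun s => s.count v) with hK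
    set S' := S.image (fun s => s.filter (fun u => u ≠ v)) with hS'
    have hS'L : ∀ s ∈ S', ∀ u ∈ s, u ∈ L := by
      intro s hs u hu
      rw [hS', Finset.mem_image] at hs
      obtain ⟨s0, hs0, rfl⟩ := hs
      rw [Multiset.mem_filter] at hu
      have := hS s0 hs0 u hu.1
      rw [Finset.mem_insert] at this
      rcases this with h | h
      · exact absurd h hu.2
      · exact h
    have hinj : Set.InjOn (fun s : Multiset α => (s.count v, s.filter (fun u => u ≠ v)))
        (S : Set (Multiset α)) := by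
      intro s _ s' _ h
      have h1 : s.count v = s'.count v := congrArg Prod.fst h
      have h2 : s.filter (fun u => u ≠ v) = s'.filter (fun u => u ≠ v) := congrArg Prod.snd h
      rw [← split_letter v s, ← split_letter v s', h1, h2]
    have e1 : ∑ s ∈ S, (s.map y).prod
        = ∑ p ∈ S.image (fun s : Multiset α => (s.count v, s.filter (fun u => u ≠ v))),
            y v ^ p.1 * (p.2.map y).prod := by
      rw [Finset.sum_image hinj]
      exact Finset.sum_congr rfl fun s _ => prod_split y v s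
    have hsub : S.image (fun s : Multiset α => (s.count v, s.filter (fun u => u ≠ v)))
        ⊆ (Finset.range (K + 1)) ×ˢ S' := by
      intro p hp
      rw [Finset.mem_image] at hp
      obtain ⟨s, hs, rfl⟩ := hp
      rw [Finset.mem_product]
      refine ⟨?_, ?_⟩
      · rw [Finset.mem_range]
        have : s.count v ≤ K := Finset.le_sup (f := fun s : Multiset α => s.count v) hs
        exact Nat.lt_succ_of_le this
      · exact Finset.mem_image_of_mem _ hs
    have hnn : ∀ p ∈ (Finset.range (K + 1)) ×ˢ S', 0 ≤ y v ^ p.1 * (p.2.map y).prod := by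
      intro p hp
      rw [Finset.mem_product] at hp
      refine mul_nonneg (pow_nonneg hyv.1 _) (prod_map_nonneg y _ fun u hu => ?_)
      exact (hyL u (hS'L _ hp.2 u hu)).1
    have hgeo : ∑ k ∈ Finset.range (K + 1), y v ^ k ≤ (1 - y v)⁻¹ := by
      rw [geom_sum_eq hyv.2.ne]
      rw [div_eq_mul_inv, ← neg_sub, ← neg_sub (1 : ℝ) (y v), inv_neg, neg_mul_neg]
      have h1 : 0 < (1 - y v)⁻¹ := inv_pos.2 (by linarith [hyv.2])
      have h2 : 0 ≤ y v ^ (K + 1) := pow_nonneg hyv.1 _
      nlinarith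
    calc ∑ s ∈ S, (s.map y).prod
        = ∑ p ∈ S.image (fun s : Multiset α => (s.count v, s.filter (fun u => u ≠ v))),
            y v ^ p.1 * (p.2.map y).prod := e1
      _ ≤ ∑ p ∈ (Finset.range (K + 1)) ×ˢ S', y v ^ p.1 * (p.2.map y).prod :=
          Finset.sum_le_sum_of_subset_of_nonneg hsub fun p hp _ => hnn p hp
      _ = (∑ k ∈ Finset.range (K + 1), y v ^ k) * ∑ s ∈ S', (s.map y).prod := by
          rw [Finset.sum_product, Finset.sum_mul]
          refine Finset.sum_congr rfl fun k _ => ?_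
          rw [Finset.mul_sum]
      _ ≤ (1 - y v)⁻¹ * ∏ u ∈ L, (1 - y u)⁻¹ := by
          apply mul_le_mul hgeo (ih hyL S' hS'L)
          · refine Finset.sum_nonneg fun s hs => prod_map_nonneg y _ fun u hu => ?_
            exact (hyL u (hS'L _ hs u hu)).1
          · exact inv_nonneg.2 (by linarith [hyv.2])

end gen

section letters
variable {ι : Type*} [Fintype ι]

/-- The pairing of a real vector with a letter. -/
noncomputable def dotp (x : ι → ℝ) (v : ι → ℕ) : ℝ := ∑ i, x i * (v i : ℝ)

theorem dotp_zero (x : ι → ℝ) : dotp x 0 = 0 := by simp [dotp]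

theorem dotp_add (x : ι → ℝ) (u v : ι → ℕ) : dotp x (u + v) = dotp x u + dotp x v := by
  unfold dotp
  rw [← Finset.sum_add_distrib]
  refine Finset.sum_congr rfl fun i _ => ?_
  rw [Pi.add_apply, Nat.cast_add, mul_add]

theorem prod_exp_dotp (x : ι → ℝ) (s : Multiset (ι → ℕ)) :
    (s.map fun v => Real.exp (-dotp x v)).prod = Real.exp (-dotp x s.sum) := by
  induction s using Multiset.induction_on with
  | empty => simp [dotp_zero]
  | cons v s ih =>
    rw [Multiset.map_cons, Multiset.prod_cons, ih, ← Real.exp_add, Multiset.sum_cons, dotp_add]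
    congr 1
    ring

theorem prod_tilt (x : ι → ℝ) (J : (ι → ℕ) → Prop) [DecidablePred J] (z : ℝ)
    (s : Multiset (ι → ℕ)) :
    (s.map fun v => (if J v then z else 1) * Real.exp (-dotp x v)).prod
      = z ^ (Multiset.card (s.filter J)) * Real.exp (-dotp x s.sum) := by
  rw [Multiset.prod_map_mul, prod_exp_dotp]
  congr 1
  induction s using Multiset.induction_on with
  | empty => simp
  | cons v s ih =>
    rw [Multiset.map_cons, Multiset.prod_cons, ih, Multiset.filter_cons]
    by_cases h : J v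
    · simp only [if_pos h]
      rw [Multiset.card_add, Multiset.card_singleton, pow_add, pow_one]
    · simp only [if_neg h]
      rw [one_mul, zero_add]

/-- The multisets of letters of `L` of sum `w`, at least `t` of which satisfy `J`. -/
def NTs (L : Finset (ι → ℕ)) (J : (ι → ℕ) → Prop) [DecidablePred J] (w : ι → ℕ) (t : ℕ) :
    Set (Multiset (ι → ℕ)) :=
  {s | (∀ v ∈ s, v ∈ L) ∧ s.sum = w ∧ t ≤ Multiset.card (s.filter J)}

/-- The partition function of the letters. -/
noncomputable def ZL (L : Finset (ι → ℕ)) (x : ι → ℝ) : ℝ :=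
  ∏ v ∈ L, (1 - Real.exp (-dotp x v))⁻¹

theorem ZL_pos (L : Finset (ι → ℕ)) (x : ι → ℝ) (hL : ∀ v ∈ L, 0 < dotp x v) : 0 < ZL L x := by
  refine Finset.prod_pos fun v hv => inv_pos.2 ?_
  have : Real.exp (-dotp x v) < 1 := by
    rw [Real.exp_lt_one_iff]
    linarith [hL v hv]
  linarith

/-- Chernoff bound for a finite subset. -/
theorem nt_finset_le (L : Finset (ι → ℕ)) (J : (ι → ℕ) → Prop) [DecidablePred J] (x : ι → ℝ)
    (σ : ℝ) (hσ : 0 ≤ σ) (hL : ∀ v ∈ L, 0 < dotp x v) (hJ : ∀ v ∈ L, J v → σ < dotp x v)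
    (w : ι → ℕ) (t : ℕ) (S : Finset (Multiset (ι → ℕ)))
    (hS : (S : Set (Multiset (ι → ℕ))) ⊆ NTs L J w t) :
    (S.card : ℝ) ≤ Real.exp (dotp x w - σ * t
        + (Real.exp σ - 1) * ∑ v ∈ L.filter J,
            Real.exp (-dotp x v) / (1 - Real.exp σ * Real.exp (-dotp x v))) * ZL L x := by
  classical
  set q : (ι → ℕ) → ℝ := fun v => Real.exp (-dotp x v) with hq
  set y : (ι → ℕ) → ℝ := fun v => (if J v then Real.exp σ else 1) * q v with hy
  have hq0 : ∀ v, 0 < q v := fun v => Real.exp_pos _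
  have hq1 : ∀ v ∈ L, q v < 1 := by
    intro v hv
    rw [hq]
    show Real.exp _ < 1
    rw [Real.exp_lt_one_iff]
    linarith [hL v hv]
  have hzq : ∀ v ∈ L, J v → Real.exp σ * q v < 1 := by
    intro v hv hj
    rw [hq]
    show Real.exp σ * Real.exp _ < 1
    rw [← Real.exp_add, Real.exp_lt_one_iff]
    linarith [hJ v hv hj]
  have hy01 : ∀ v ∈ L, 0 ≤ y v ∧ y v < 1 := by
    intro v hv
    by_cases h : J v
    · simp only [hy, if_pos h]
      exact ⟨(mul_pos (Real.exp_pos _) (hq0 v)).le, hzq v hv h⟩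
    · simp only [hy, if_neg h, one_mul]
      exact ⟨(hq0 v).le, hq1 v hv⟩
  have h1 : ∑ s ∈ S, (s.map y).prod ≤ ∏ v ∈ L, (1 - y v)⁻¹ :=
    mgf_le L y hy01 S fun s hs => (hS hs).1
  have h2 : (S.card : ℝ) * Real.exp (σ * t - dotp x w) ≤ ∑ s ∈ S, (s.map y).prod := by
    rw [← nsmul_eq_mul]
    refine Finset.card_nsmul_le_sum S _ _ fun s hs => ?_
    have hs' := hS hs
    rw [hy, hq, prod_tilt x J (Real.exp σ) s, hs'.2.1, ← Real.exp_nat_mul, ← Real.exp_add,
      Real.exp_le_exp]
    have : (t : ℝ) ≤ (Multiset.card (s.filter J) : ℝ) := by exact_mod_cast hs'.2.2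
    nlinarith
  have h3 : ∏ v ∈ L, (1 - y v)⁻¹ ≤ ZL L x * Real.exp ((Real.exp σ - 1) * ∑ v ∈ L.filter J,
            q v / (1 - Real.exp σ * q v)) := by
    rw [Finset.mul_sum, Real.exp_sum, Finset.prod_filter, ZL, ← Finset.prod_mul_distrib]
    refine Finset.prod_le_prod (fun v hv => inv_nonneg.2 (by linarith [(hy01 v hv).2]))
      fun v hv => ?_
    by_cases h : J v
    · simp only [hy, if_pos h]
      have p1 : 0 < 1 - Real.exp σ * q v := by linarith [hzq v hv h]
      have p2 : 0 < 1 - q v := by linarith [hq1 v hv]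
      have e : (1 - Real.exp σ * q v)⁻¹
          = (1 - q v)⁻¹ * (1 + (Real.exp σ - 1) * (q v / (1 - Real.exp σ * q v))) := by
        field_simp
        ring
      rw [e]
      refine mul_le_mul_of_nonneg_left ?_ (inv_nonneg.2 p2.le)
      linarith [Real.add_one_le_exp ((Real.exp σ - 1) * (q v / (1 - Real.exp σ * q v)))]
    · simp only [hy, if_neg h, one_mul, mul_one]
      exact le_rfl
  have h4 : (S.card : ℝ) * Real.exp (σ * t - dotp x w) ≤ ZL L x * Real.exp ((Real.exp σ - 1)
      * ∑ v ∈ L.filter J, q v / (1 - Real.exp σ * q v)) := h2.trans (h1.trans h3)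
  have h5 : (S.card : ℝ) = (S.card : ℝ) * Real.exp (σ * t - dotp x w)
      * Real.exp (dotp x w - σ * t) := by
    rw [mul_assoc, ← Real.exp_add]
    have : σ * t - dotp x w + (dotp x w - σ * t) = 0 := by ring
    rw [this, Real.exp_zero, mul_one]
  rw [h5]
  calc (S.card : ℝ) * Real.exp (σ * t - dotp x w) * Real.exp (dotp x w - σ * t)
      ≤ (ZL L x * Real.exp ((Real.exp σ - 1) * ∑ v ∈ L.filter J,
          q v / (1 - Real.exp σ * q v))) * Real.exp (dotp x w - σ * t) :=
        mul_le_mul_of_nonneg_right h4 (Real.exp_pos _).le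
    _ = _ := by
        rw [Real.exp_add]
        ring

/-- **NT.** The Chernoff bound for the number of multisets of letters of `L` of sum `w` with at
least `t` letters in `J`. -/
theorem nt_le (L : Finset (ι → ℕ)) (J : (ι → ℕ) → Prop) [DecidablePred J] (x : ι → ℝ)
    (σ : ℝ) (hσ : 0 ≤ σ) (hL : ∀ v ∈ L, 0 < dotp x v) (hJ : ∀ v ∈ L, J v → σ < dotp x v)
    (w : ι → ℕ) (t : ℕ) :
    ((NTs L J w t).ncard : ℝ) ≤ Real.exp (dotp x w - σ * t
        + (Real.exp σ - 1) * ∑ v ∈ L.filter J,
            Real.exp (-dotp x v) / (1 - Real.exp σ * Real.exp (-dotp x v))) * ZL L x := by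
  classical
  by_cases hf : (NTs L J w t).Finite
  · rw [Set.ncard_eq_toFinset_card _ hf]
    exact nt_finset_le L J x σ hσ hL hJ w t hf.toFinset (by rw [Set.Finite.coe_toFinset])
  · rw [Set.Infinite.ncard hf, Nat.cast_zero]
    exact mul_nonneg (Real.exp_pos _).le (ZL_pos L x hL).le

/-- (c) the plain bound: `c(w) ≤ e^{x.w} Z(x)`. -/
theorem c_le (L : Finset (ι → ℕ)) (x : ι → ℝ) (hL : ∀ v ∈ L, 0 < dotp x v) (w : ι → ℕ) :
    (({s : Multiset (ι → ℕ) | (∀ v ∈ s, v ∈ L) ∧ s.sum = w}.ncard : ℕ) : ℝ)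
      ≤ Real.exp (dotp x w) * ZL L x := by
  classical
  have h := nt_le L (fun _ => False) x 0 le_rfl hL (fun v _ h => h.elim) w 0
  have e : NTs L (fun _ => False) w 0 = {s | (∀ v ∈ s, v ∈ L) ∧ s.sum = w} := by
    ext s
    simp [NTs]
  rw [e] at h
  simpa using h

end letters

end Vale.Agent.P181.Z.H582
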