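import Mathlib

/-!
# [WGLUE]: the numbers of the run across the walls (Cartan product first, then Pieri steps)
-/

namespace Vale.Agent.P181.Z.H582

open Finset

/-- The constants of the run. -/
def Kc (c : ℕ → ℕ) : ℕ → ℕ
  | 0 => 0
  | j + 1 => (1 + c j) * Kc c j + 4

/-- The numbers of boxes of the Pieri steps. -/
def kk (c δ : ℕ → ℕ) (G : ℕ) : ℕ → ℕ
  | 0 => 0
  | j + 1 => (1 + c j) * kk c δ G j + δ (j + 1) + (if j = 0 then G else 0) - δ j

theorem kk_le (c δ : ℕ → ℕ) (G h : ℕ) (R : ℕ → ℝ) (K : ℝ)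
    (hR0 : ∀ j, j < h → 0 ≤ R j) (hR : ∀ j, j + 1 < h → R (j + 1) ≤ R j)
    (hG : 0 < h → (G : ℝ) ≤ R 0)
    (hlo : ∀ j, j < h → (K - 2) * R j ≤ (δ j : ℝ)) (hhi : ∀ j, j < h → (δ j : ℝ) ≤ (K + 1) * R j)
    (hK : ∀ j, j < h → ((1 + c j) * Kc c j + 3 : ℕ) ≤ K) :
    ∀ j, j < h → (kk c δ G j : ℝ) ≤ (Kc c j : ℝ) * R j := by
  intro j
  induction j with
  | zero =>
    intro _
    simp [kk, Kc]
  | succ j ih =>
    intro hj
    have ihj := ih (by omega)
    have h1 := hR j hj
    have h2 := hlo j (by omega)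
    have h3 := hhi (j + 1) hj
    have h4 := hK j (by omega)
    have h5 := hR0 j (by omega)
    have h6 := hR0 (j + 1) hj
    have hGj : ((if j = 0 then G else 0 : ℕ) : ℝ) ≤ R j := by
      by_cases h0 : j = 0
      · subst h0
        simpa using hG (by omega)
      · simp only [if_neg h0, Nat.cast_zero]
        exact h5
    -- the truncated difference
    have hk : (kk c δ G (j + 1) : ℝ) ≤ max 0 ((1 + c j : ℝ) * kk c δ G j + δ (j + 1)
        + ((if j = 0 then G else 0 : ℕ) : ℝ) - δ j) := by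
      show (((1 + c j) * kk c δ G j + δ (j + 1) + (if j = 0 then G else 0) - δ j : ℕ) : ℝ) ≤ _
      rcases le_total (δ j) ((1 + c j) * kk c δ G j + δ (j + 1) + (if j = 0 then G else 0))
        with hle | hle
      · rw [Nat.cast_sub hle]
        refine le_trans (le_of_eq ?_) (le_max_right _ _)
        push_cast
        ring
      · rw [Nat.sub_eq_zero_of_le hle, Nat.cast_zero]
        exact le_max_left _ _
    refine hk.trans (max_le (by positivity) ?_)
    have hcast : ((Kc c (j + 1) : ℕ) : ℝ) = (1 + c j : ℝ) * Kc c j + 4 := by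
      simp only [Kc]
      push_cast
      ring
    rw [hcast]
    have h7 : (1 + c j : ℝ) * (kk c δ G j : ℝ) ≤ (1 + c j : ℝ) * ((Kc c j : ℝ) * R j) :=
      mul_le_mul_of_nonneg_left ihj (by positivity)
    have h8 : ((1 + c j : ℝ) * Kc c j + 3) ≤ K := by
      have := h4
      push_cast at this
      exact this
    nlinarith [mul_nonneg (sub_nonneg.2 h8) (sub_nonneg.2 h1)]

/-- **[WGLUE] (a).** -/
theorem wnum (c δ : ℕ → ℕ) (G h : ℕ) (R : ℕ → ℝ) (K : ℝ)
    (hR0 : ∀ j, j < h → 0 ≤ R j) (hR : ∀ j, j + 1 < h → R (j + 1) ≤ R j)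
    (hG : 0 < h → (G : ℝ) ≤ R 0)
    (hlo : ∀ j, j < h → (K - 2) * R j ≤ (δ j : ℝ)) (hhi : ∀ j, j < h → (δ j : ℝ) ≤ (K + 1) * R j)
    (hK : ∀ j, j < h → ((1 + c j) * Kc c j + 3 : ℕ) ≤ K) :
    ∃ k ν : ℕ → ℕ, k 0 = 0 ∧
      (∀ j, j < h → δ j = ν j + k j + ∑ i ∈ Finset.Ico j h, c i * k i) ∧
      (∀ j, j + 1 < h → ν (j + 1) ≤ ν j) ∧ (1 < h → ν 1 + G ≤ ν 0) ∧
      ∀ j, j < h → (k j : ℝ) ≤ (Kc c j : ℝ) * R j := by
  have hkle := kk_le c δ G h R K hR0 hR hG hlo hhi hK
  set k := kk c δ G with hk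
  -- integer remainder
  set z : ℕ → ℤ := fun j => (δ j : ℤ) - k j - ∑ i ∈ Finset.Ico j h, (c i : ℤ) * k i with hz
  have hstep : ∀ j, j + 1 < h → z (j + 1) + ((if j = 0 then G else 0 : ℕ) : ℤ) ≤ z j := by
    intro j hj
    have hsum : ∑ i ∈ Finset.Ico j h, (c i : ℤ) * k i
        = (c j : ℤ) * k j + ∑ i ∈ Finset.Ico (j + 1) h, (c i : ℤ) * k i :=
      Finset.sum_eq_sum_Ico_succ_bot (by omega) _
    have hkj : (1 + c j) * k j + δ (j + 1) + (if j = 0 then G else 0) ≤ k (j + 1) + δ j := by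
      have : k (j + 1) = (1 + c j) * k j + δ (j + 1) + (if j = 0 then G else 0) - δ j := rfl
      omega
    have hkj' : ((1 + c j : ℤ)) * k j + δ (j + 1) + ((if j = 0 then G else 0 : ℕ) : ℤ)
        ≤ k (j + 1) + δ j := by exact_mod_cast hkj
    simp only [hz]
    rw [hsum]
    linarith
  have hlast : ∀ j, j + 1 = h → 0 ≤ z j := by
    intro j hj
    have hsum : ∑ i ∈ Finset.Ico j h, (c i : ℤ) * k i = (c j : ℤ) * k j := by
      rw [← hj]
      simp
    have h1 := hkle j (by omega)
    have h2 := hlo j (by omega)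
    have h3 := hK j (by omega)
    have h4 := hR0 j (by omega)
    have h5 : ((1 + c j : ℝ)) * Kc c j + 3 ≤ K := by
      have := h3
      push_cast at this
      exact this
    have h6 : (1 + c j : ℝ) * (k j : ℝ) ≤ (1 + c j : ℝ) * ((Kc c j : ℝ) * R j) :=
      mul_le_mul_of_nonneg_left h1 (by positivity)
    have h7 : (1 + c j : ℝ) * (k j : ℝ) ≤ (δ j : ℝ) := by nlinarith
    have h8 : (1 + c j) * k j ≤ δ j := by exact_mod_cast h7
    have h9 : ((1 + c j : ℤ)) * k j ≤ δ j := by exact_mod_cast h8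
    simp only [hz]
    rw [hsum]
    linarith
  have hnn : ∀ d j, j + 1 + d = h → 0 ≤ z j := by
    intro d
    induction d with
    | zero => intro j hj; exact hlast j (by omega)
    | succ d ih =>
      intro j hj
      have h1 := ih (j + 1) (by omega)
      have h2 := hstep j (by omega)
      have h3 : (0 : ℤ) ≤ ((if j = 0 then G else 0 : ℕ) : ℤ) := Int.natCast_nonneg _
      linarith
  have hnn' : ∀ j, j < h → 0 ≤ z j := fun j hj => hnn (h - (j + 1)) j (by omega)
  refine ⟨k, fun j => (z j).toNat, rfl, ?_, ?_, ?_, hkle⟩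
  · intro j hj
    have h1 := Int.toNat_of_nonneg (hnn' j hj)
    zify
    rw [h1]
    simp only [hz]
    ring
  · intro j hj
    have h1 := hstep j hj
    have h3 : (0 : ℤ) ≤ ((if j = 0 then G else 0 : ℕ) : ℤ) := Int.natCast_nonneg _
    exact Int.toNat_le_toNat (by linarith)
  · intro hh
    have h1 := hstep 0 hh
    have h2 := Int.toNat_of_nonneg (hnn' 0 (by omega))
    have h3 := Int.toNat_of_nonneg (hnn' 1 hh)
    simp only [if_true, zero_add] at h1
    zify
    rw [h2, h3]
    linarith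

/-- The weight of one Pieri step at the row `j` (counted from `0` below the first row): `c`
boxes in the rows above it (below the first one), `c + 1` boxes in this row, `r` in the first. -/
def rho (h c r j : ℕ) : Fin (h + 1) → ℕ := fun i =>
  if (i : ℕ) = 0 then r else if (i : ℕ) ≤ j then c else if (i : ℕ) = j + 1 then c + 1 else 0

/-- The shape after the Pieri steps `1, …, m - 1`. -/
def Wm (h : ℕ) (c r k : ℕ → ℕ) (θ : Fin (h + 1) → ℕ) (m : ℕ) : Fin (h + 1) → ℕ :=
  θ + ∑ j ∈ Finset.Ico 1 m, k j • rho h (c j) (r j) j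

theorem Wm_succ (h : ℕ) (c r k : ℕ → ℕ) (θ : Fin (h + 1) → ℕ) (m : ℕ) (hm : 1 ≤ m) :
    Wm h c r k θ (m + 1) = Wm h c r k θ m + k m • rho h (c m) (r m) m := by
  unfold Wm
  rw [Finset.sum_Ico_succ_top hm, add_assoc]

/-- The rows of the shape. -/
theorem Wm_row (h : ℕ) (c r k : ℕ → ℕ) (hk0 : k 0 = 0) (θ : Fin (h + 1) → ℕ) (m l : ℕ)
    (hm : 1 ≤ m) (hl : l < h) :
    Wm h c r k θ m ⟨l + 1, by omega⟩ = θ ⟨l + 1, by omega⟩ + (if l < m then k l else 0)
      + ∑ j ∈ Finset.Ico l m, c j * k j := by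
  induction m, hm using Nat.le_induction with
  | base =>
    unfold Wm
    simp only [Finset.Ico_self, Finset.sum_empty, add_zero]
    rcases Nat.eq_zero_or_pos l with h0 | h0
    · subst h0
      simp [hk0]
    · rw [if_neg (by omega), Finset.Ico_eq_empty (by omega)]
      simp
  | succ m hm ih =>
    rw [Wm_succ h c r k θ m hm, Pi.add_apply, ih, Pi.smul_apply, smul_eq_mul]
    have hrho : rho h (c m) (r m) m ⟨l + 1, by omega⟩
        = if l < m then c m else if l = m then c m + 1 else 0 := by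
      unfold rho
      simp only [Nat.add_eq_zero_iff, one_ne_zero, and_false, if_false]
      by_cases h1 : l < m
      · rw [if_pos (by omega), if_pos h1]
      · rw [if_neg (by omega), if_neg h1]
        by_cases h2 : l = m
        · rw [if_pos (by omega), if_pos h2]
        · rw [if_neg (by omega), if_neg h2]
    rw [hrho]
    rcases lt_trichotomy l m with h1 | h1 | h1
    · rw [if_pos h1, if_pos h1, if_pos (by omega), Finset.sum_Ico_succ_top (by omega)]
      ring
    · subst h1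
      rw [if_neg (lt_irrefl l), if_neg (lt_irrefl l), if_pos rfl, if_pos (by omega),
        Finset.sum_Ico_succ_top (le_refl l), Finset.Ico_self, Finset.sum_empty]
      ring
    · rw [if_neg (by omega), if_neg (by omega), if_neg (by omega), if_neg (by omega),
        Finset.Ico_eq_empty (by omega), Finset.Ico_eq_empty (by omega)]
      ring

/-- **[WGLUE] (b): the chain of Pieri steps.** `F b θ` is any quantity which loses a factor `Q` in
every admissible Pieri step. -/
theorem wchain (h : ℕ) (c r Bq k : ℕ → ℕ) (hk0 : k 0 = 0) (Q : ℕ)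
    (F : ℕ → (Fin (h + 1) → ℕ) → ℕ)
    (Pie : ∀ j, 1 ≤ j → (hj : j < h) → ∀ (b : ℕ) (θ : Fin (h + 1) → ℕ),
      (∀ l, (hl : l + 1 < h) → θ ⟨l + 2, by omega⟩ ≤ θ ⟨l + 1, by omega⟩) →
      θ ⟨j + 1, by omega⟩ + k j ≤ θ ⟨j, by omega⟩ →
      F b θ ≤ Q * F (b + k j * Bq j) (θ + k j • rho h (c j) (r j) j))
    (b : ℕ) (θ lam : Fin (h + 1) → ℕ)
    (hθ : ∀ l, (hl : l + 1 < h) → θ ⟨l + 2, by omega⟩ ≤ θ ⟨l + 1, by omega⟩)
    (hlam : ∀ l, (hl : l + 1 < h) → lam ⟨l + 2, by omega⟩ ≤ lam ⟨l + 1, by omega⟩)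
    (hrow : ∀ l, (hl : l < h) → lam ⟨l + 1, by omega⟩
      = θ ⟨l + 1, by omega⟩ + k l + ∑ j ∈ Finset.Ico l h, c j * k j)
    (h0 : lam 0 = θ 0 + ∑ j ∈ Finset.Ico 1 h, k j * r j) :
    F b θ ≤ Q ^ (h - 1) * F (b + ∑ j ∈ Finset.Ico 1 h, k j * Bq j) lam := by
  -- all intermediate shapes
  have key : ∀ m, 1 ≤ m → m ≤ h →
      F b θ ≤ Q ^ (m - 1) * F (b + ∑ j ∈ Finset.Ico 1 m, k j * Bq j) (Wm h c r k θ m) := by
    intro m hm
    induction m, hm using Nat.le_induction with
    | base =>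
      intro _
      simp [Wm]
    | succ m hm ih =>
      intro hmh
      have ih' := ih (by omega)
      -- the shape before step `m`
      have hW : ∀ l, (hl : l < h) → Wm h c r k θ m ⟨l + 1, by omega⟩
          = θ ⟨l + 1, by omega⟩ + (if l < m then k l else 0) + ∑ j ∈ Finset.Ico l m, c j * k j :=
        fun l hl => Wm_row h c r k hk0 θ m l hm hl
      -- differences of consecutive rows of `lam`
      have hdiff : ∀ l, (hl : l + 1 < h) →
          θ ⟨l + 2, by omega⟩ + k (l + 1) ≤ θ ⟨l + 1, by omega⟩ + k l + c l * k l := by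
        intro l hl
        have h1 := hlam l hl
        have h2 := hrow l (by omega)
        have h3 := hrow (l + 1) hl
        rw [Finset.sum_eq_sum_Ico_succ_bot (by omega : l < h)] at h2
        rw [h2] at h1
        have h4 : lam ⟨l + 2, by omega⟩ = θ ⟨l + 2, by omega⟩ + k (l + 1)
            + ∑ j ∈ Finset.Ico (l + 1) h, c j * k j := h3
        rw [h4] at h1
        omega
      have hanti : ∀ l, (hl : l + 1 < h) →
          Wm h c r k θ m ⟨l + 2, by omega⟩ ≤ Wm h c r k θ m ⟨l + 1, by omega⟩ := by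
        intro l hl
        have e1 := hW l (by omega)
        have e2 : Wm h c r k θ m ⟨l + 2, by omega⟩ = θ ⟨l + 2, by omega⟩
          + (if l + 1 < m then k (l + 1) else 0) + ∑ j ∈ Finset.Ico (l + 1) m, c j * k j :=
          hW (l + 1) hl
        rw [e1, e2]
        have hd := hdiff l hl
        have ht := hθ l hl
        by_cases h1 : l + 1 < m
        · rw [if_pos h1, if_pos (by omega), Finset.sum_eq_sum_Ico_succ_bot (by omega : l < m)]
          omega
        · rw [if_neg h1, Finset.Ico_eq_empty (by omega : ¬ l + 1 < m)]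
          simp only [Finset.sum_empty, add_zero]
          have : θ ⟨l + 2, by omega⟩ ≤ θ ⟨l + 1, by omega⟩ := ht
          omega
      have hadm : Wm h c r k θ m ⟨m + 1, by omega⟩ + k m ≤ Wm h c r k θ m ⟨m, by omega⟩ := by
        obtain ⟨m', rfl⟩ : ∃ m', m = m' + 1 := ⟨m - 1, by omega⟩
        have e1 := hW m' (by omega)
        have e2 : Wm h c r k θ (m' + 1) ⟨m' + 1 + 1, by omega⟩ = θ ⟨m' + 1 + 1, by omega⟩
          + (if m' + 1 < m' + 1 then k (m' + 1) else 0)
          + ∑ j ∈ Finset.Ico (m' + 1) (m' + 1), c j * k j := hW (m' + 1) (by omega)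
        rw [e1, e2]
        have hd := hdiff m' (by omega)
        rw [if_neg (lt_irrefl _), if_pos (Nat.lt_succ_self m'), Finset.Ico_self,
          Finset.sum_empty, Nat.Ico_succ_singleton, Finset.sum_singleton]
        have : θ ⟨m' + 2, by omega⟩ + k (m' + 1) ≤ θ ⟨m' + 1, by omega⟩ + k m' + c m' * k m' := hd
        omega
      have hP := Pie m hm (by omega) (b + ∑ j ∈ Finset.Ico 1 m, k j * Bq j)
        (Wm h c r k θ m) hanti hadm
      rw [← Wm_succ h c r k θ m hm, add_assoc, ← Finset.sum_Ico_succ_top hm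
        (fun j => k j * Bq j)] at hP
      have hpow : Q ^ (m + 1 - 1) = Q ^ (m - 1) * Q := by
        rw [← pow_succ]
        congr 1
        omega
      rw [hpow, mul_assoc]
      exact ih'.trans (Nat.mul_le_mul_left _ hP)
  rcases Nat.eq_zero_or_pos h with hh | hh
  · subst hh
    have : lam = θ := by
      funext i
      have hi : i = 0 := Fin.ext (by omega)
      subst hi
      simpa using h0
    rw [this]
    simp
  · have hfin := key h hh le_rfl
    have hlamW : Wm h c r k θ h = lam := by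
      funext i
      rcases Nat.eq_zero_or_pos (i : ℕ) with hi | hi
      · have hi' : i = 0 := Fin.ext hi
        subst hi'
        rw [h0]
        unfold Wm
        rw [Pi.add_apply, Finset.sum_apply]
        congr 1
      · obtain ⟨l, hl⟩ : ∃ l, (i : ℕ) = l + 1 := ⟨i - 1, by omega⟩
        have hlh : l < h := by have := i.isLt; omega
        have hi' : i = ⟨l + 1, by omega⟩ := Fin.ext hl
        rw [hi', Wm_row h c r k hk0 θ h l hh hlh, hrow l hlh, if_pos hlh]
    rw [hlamW] at hfin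
    exact hfin

end Vale.Agent.P181.Z.H582
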