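import Vale.Agent.P181.Z.H582.Wall
import Vale.Agent.P181.Z.H463.EqB

/-!
# The run, in the form fed by the bridge
-/

set_option autoImplicit false

namespace Vale.Agent.P181.Z.H582

open Finset Module
open Vale.Agent.P181 Vale.Agent.P181.H280 Vale.Agent.P181.Z463 Vale.Agent.P181.FR
open Vale.Agent.P181.Z.H483

/-- Extension by zero. -/
def ext0 {m : ℕ} (k : Fin m → ℕ) (l : ℕ) : ℕ := if h : l < m then k ⟨l, h⟩ else 0

theorem ext0_fin {m : ℕ} (k : Fin m → ℕ) (l : Fin m) : ext0 k (l : ℕ) = k l := by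
  unfold ext0
  rw [dif_pos l.isLt]

theorem sum_Ico_ext0 {m : ℕ} (f : ℕ → ℕ) (k : Fin m → ℕ) (l : ℕ) :
    ∑ i ∈ Finset.Ico l m, f i * ext0 k i
      = ∑ i ∈ (Finset.univ : Finset (Fin m)).filter (fun i : Fin m => l ≤ (i : ℕ)), f i * k i := by
  rw [Finset.sum_filter]
  have h1 : ∑ i : Fin m, (if l ≤ (i : ℕ) then f i * k i else 0)
      = ∑ i ∈ Finset.range m, (if l ≤ i then f i * ext0 k i else 0) := by
    rw [Finset.sum_range]
    refine Finset.sum_congr rfl fun i _ => ?_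
    rw [ext0_fin]
  rw [h1, ← Finset.sum_filter]
  refine Finset.sum_congr ?_ fun _ _ => rfl
  ext i
  rw [Finset.mem_Ico, Finset.mem_filter, Finset.mem_range]
  tauto

/-- **The run, final form.** `κ` is the weight of `exists_kappa`. -/
theorem wall_run' {n N a b : ℕ} (B c : ℕ → ℕ) (hPie : PieH n a B c)
    (hcB : ∀ j, j < n + 2 → (j + 1) * c j + 1 ≤ a * B j) (ha : n + 3 ≤ a)
    (κ : Fin (n + 3) → ℕ) (hκ : ∑ i, κ i = (a + 4) * a)
    (hκ2 : ∀ (N : ℕ) (theta0 : Fin (n + 3) → ℕ), plethMult N a (n + 3) theta0 ≤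
        finrank ℂ (KH (N + (a + 4)) a (n + 3) (theta0 + κ)))
    (θ : Fin (n + 2) → ℕ) (hθ : ∑ i, θ i ≤ N * a) (lam : Fin (n + 2) → ℕ)
    (hlam : ∑ i, lam i ≤ b * a) (hanti : Antitone lam)
    (k ν : Fin (n + 2) → ℕ) (hk0 : k 0 = 0)
    (hrow : ∀ l : Fin (n + 2), lam l = θ l + κ l.succ + ν l + k l
      + ∑ i ∈ (Finset.univ : Finset (Fin (n + 2))).filter (fun i => l ≤ i), c (i : ℕ) * k i)
    (hν : Antitone ν) (hG : ν 1 + ((n + 3) ^ 3 + 3) ≤ ν 0)
    (Bν : ℕ) (hbud : N + (a + 4) + Bν + ∑ i : Fin (n + 2), k i * B (i : ℕ) = b)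
    (hcart : (n + 3) * ν 0 + 4 * (n + 3) ^ 2 * a ≤ (a - 1) * Bν) :
    fP N a θ ≤ ((b + 1 : ℕ) : ℝ) ^ ((n + 3) * (n + 1))
      * (finrank ℂ (KH b a (n + 3) (full b a lam)) : ℝ) := by
  rw [fP, if_pos hθ]
  have h1 := hκ2 N (full N a θ)
  have hk0' : ext0 k 0 = 0 := by
    have := ext0_fin k 0
    rw [hk0] at this
    exact this
  have h2 := wall_run_KH (N1 := N + (a + 4)) (b := b) B c hPie hcB ha (full N a θ + κ)
    (full b a lam)
    (by
      simp only [Pi.add_apply]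
      rw [Finset.sum_add_distrib, hκ]
      have := sum_up hθ
      unfold full
      rw [this]
      ring)
    (by
      have := sum_up hlam
      unfold full
      rw [this]
      ring)
    (by
      intro l hl
      show lam ⟨l + 1, hl⟩ ≤ lam ⟨l, by omega⟩
      exact hanti (Fin.mk_le_mk.2 (by omega)))
    (ext0 k) (ext0 ν) hk0'
    (by
      intro l hl
      have h3 := hrow ⟨l, hl⟩
      have e1 : ext0 k l = k ⟨l, hl⟩ := ext0_fin k ⟨l, hl⟩
      have e2 : ext0 ν l = ν ⟨l, hl⟩ := ext0_fin ν ⟨l, hl⟩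
      have e3 := sum_Ico_ext0 c k l
      rw [e1, e2, e3]
      exact h3)
    (by
      intro l hl
      have e1 : ext0 ν (l + 1) = ν ⟨l + 1, hl⟩ := ext0_fin ν ⟨l + 1, hl⟩
      have e2 : ext0 ν l = ν ⟨l, by omega⟩ := ext0_fin ν ⟨l, by omega⟩
      rw [e1, e2]
      exact hν (Fin.mk_le_mk.2 (by omega)))
    (by
      have e1 : ext0 ν 1 = ν 1 := ext0_fin ν 1
      have e2 : ext0 ν 0 = ν 0 := ext0_fin ν 0
      rw [e1, e2]
      exact hG)
    Bν
    (by
      have e : ∑ i ∈ Finset.Ico 1 (n + 2), ext0 k i * B i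
          = ∑ i : Fin (n + 2), k i * B (i : ℕ) := by
        have h4 : ∑ i : Fin (n + 2), k i * B (i : ℕ)
            = ∑ i ∈ Finset.range (n + 2), ext0 k i * B i := by
          rw [Finset.sum_range]
          exact Finset.sum_congr rfl fun i _ => by rw [ext0_fin]
        rw [h4, Finset.range_eq_Ico, Finset.sum_eq_sum_Ico_succ_bot (by omega : 0 < n + 2), hk0',
          zero_mul, zero_add]
      rw [e]
      exact hbud)
    (by
      have e2 : ext0 ν 0 = ν 0 := ext0_fin ν 0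
      rw [e2]
      exact hcart)
  have h3 : plethMult N a (n + 3) (full N a θ)
      ≤ ((b + 1) ^ (n + 3)) ^ (n + 1) * finrank ℂ (KH b a (n + 3) (full b a lam)) :=
    h1.trans h2
  rw [← pow_mul] at h3
  have h4 : ((plethMult N a (n + 3) (full N a θ) : ℕ) : ℝ)
      ≤ (((b + 1) ^ ((n + 3) * (n + 1)) * finrank ℂ (KH b a (n + 3) (full b a lam)) : ℕ) : ℝ) := by
    exact_mod_cast h3
  refine h4.trans (le_of_eq ?_)
  push_cast
  ring

end Vale.Agent.P181.Z.H582
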