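import Vale.Agent.P181.Z.H310.EndL

set_option autoImplicit false

/-!
# P181 [QL]: all partitions with at most `n` rows for `b ≥ C a (1 + log a) ^ c`
-/

open scoped TensorProduct

universe u

open Finset Filter

namespace Vale.Agent.P181.Z.H582.Q

open Vale.Agent.P181 Vale.Agent.P181.H280 Vale.Agent.P181.Z.H310
open Vale.Agent.P181.T4 (ex ex_of_lt ex_anti)
open Vale.Agent.P181.T7 (cells)

/-- The counting statement with a free parameter `z`. -/
def CoreZ (n : ℕ) : Prop := ∃ (c0 : ℝ) (a0 : ℕ), 1 ≤ c0 ∧ ∀ a : ℕ, a0 ≤ a → ∀ z : ℝ,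
  c0 * (1 + Real.log a) ≤ z → ∀ b : ℕ, (a : ℝ) * z ^ 16 ≤ b → b + 1 ≤ a ^ 2 →
  ∀ lam : Fin (n + 3) → ℕ, Antitone lam → (∀ i, 0 < lam i) → ∑ i, lam i = b * a →
  ∏ i : Fin (n + 2), max 1 ((lam i.succ : ℝ) / a) ≤ a * z → (lam 1 : ℝ) ≤ (a : ℝ) ^ 2 * z ^ 8 →
  plethMult a b (n + 3) lam ≤ plethMult b a (n + 3) lam

/-- The alternative: done, or the product is small. -/
def TypeZ (n : ℕ) : Prop := ∃ (p : ℕ) (c1 : ℝ) (a0 : ℕ), 1 ≤ c1 ∧ ∀ a : ℕ, a0 ≤ a → ∀ X : ℝ,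
  c1 * (1 + Real.log a) ≤ X → X ^ p ≤ a → ∀ b : ℕ, (a : ℝ) * X ^ p ≤ b → b ≤ a ^ 2 →
  ∀ lam : Fin (n + 3) → ℕ, Antitone lam → (∀ i, 0 < lam i) → ∑ i, lam i = b * a →
  (lam 1 : ℝ) ≤ (a : ℝ) ^ 2 * X ^ 2 →
  plethMult a b (n + 3) lam ≤ plethMult b a (n + 3) lam ∨
    ∏ i : Fin (n + 2), max 1 ((lam i.succ : ℝ) / a) ≤ a * X ^ p

/-- The case of a long second row. -/
def FirstZ (n : ℕ) : Prop := ∃ (p : ℕ) (c1 : ℝ) (a0 : ℕ), 1 ≤ c1 ∧ ∀ a : ℕ, a0 ≤ a → ∀ X : ℝ,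
  c1 * (1 + Real.log a) ≤ X → X ^ p ≤ a → ∀ b : ℕ, (a : ℝ) * X ^ p ≤ b → b ≤ a ^ 2 →
  ∀ lam : Fin (n + 3) → ℕ, Antitone lam → (∀ i, 0 < lam i) → ∑ i, lam i = b * a →
  (a : ℝ) ^ 2 * X ^ 2 ≤ (lam 1 : ℝ) → plethMult a b (n + 3) lam ≤ plethMult b a (n + 3) lam

/-- `n + 3` positive rows, large `a`. -/
def CoreQ : Prop := ∀ n : ℕ, ∃ (c : ℕ) (C : ℝ) (a0 : ℕ), 0 ≤ C ∧ ∀ a : ℕ, a0 ≤ a →
  ∀ b : ℕ, C * (a : ℝ) * (1 + Real.log a) ^ c ≤ b → b + 1 ≤ a ^ 2 →
  ∀ lam : Fin (n + 3) → ℕ, Antitone lam → (∀ i, 0 < lam i) → ∑ i, lam i = b * a →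
  plethMult a b (n + 3) lam ≤ plethMult b a (n + 3) lam

theorem one_le_lg (a : ℕ) : 1 ≤ 1 + Real.log a := by
  have := Real.log_natCast_nonneg a
  linarith

/-- Powers of the logarithm are small. -/
theorem ev_lg (c : ℝ) (hc : 1 ≤ c) (p : ℕ) :
    ∀ᶠ a : ℕ in atTop, (c * (1 + Real.log a)) ^ p ≤ a := by
  have h1 : ∀ᶠ x : ℝ in atTop, (c * (1 + Real.log x)) ^ p ≤ x := by
    have h2 := (Real.isLittleO_pow_log_id_atTop (n := p)).bound
      (show (0 : ℝ) < 1 / (2 * c) ^ p by positivity)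
    filter_upwards [h2, eventually_ge_atTop (Real.exp 1), eventually_ge_atTop (1 : ℝ)]
      with x hx hx1 hx2
    have h3 : 1 ≤ Real.log x := by
      rw [← Real.log_exp 1]
      exact Real.log_le_log (Real.exp_pos 1) hx1
    rw [Real.norm_of_nonneg (by positivity), id, Real.norm_of_nonneg (by linarith)] at hx
    calc (c * (1 + Real.log x)) ^ p ≤ (2 * c * Real.log x) ^ p := by
          apply pow_le_pow_left₀ (by positivity)
          nlinarith
      _ = (2 * c) ^ p * Real.log x ^ p := mul_pow _ _ _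
      _ ≤ (2 * c) ^ p * (1 / (2 * c) ^ p * x) := by gcongr
      _ = x := by
          have : (2 * c) ^ p ≠ 0 := by positivity
          field_simp
  exact (tendsto_natCast_atTop_atTop (R := ℝ)).eventually h1

/-- From the three statements. -/
theorem coreQ_of (hcore : ∀ n, CoreZ n) (htype : ∀ n, TypeZ n) (hfirst : ∀ n, FirstZ n) :
    CoreQ := by
  intro n
  obtain ⟨c0, a0, hc0, h0⟩ := hcore n
  obtain ⟨p1, c1, a1, hc1, h1⟩ := htype n
  obtain ⟨p2, c2, a2, hc2, h2⟩ := hfirst n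
  obtain ⟨c, hc⟩ : ∃ c : ℝ, c = max c0 (max c1 c2) := ⟨_, rfl⟩
  obtain ⟨p, hp⟩ : ∃ p : ℕ, p = p1 + p2 + 1 := ⟨_, rfl⟩
  have hcc0 : c0 ≤ c := by rw [hc]; exact le_max_left _ _
  have hcc1 : c1 ≤ c := by rw [hc]; exact (le_max_left _ _).trans (le_max_right _ _)
  have hcc2 : c2 ≤ c := by rw [hc]; exact (le_max_right _ _).trans (le_max_right _ _)
  have hc1' : 1 ≤ c := hc0.trans hcc0
  obtain ⟨a3, h3⟩ := Filter.eventually_atTop.1 (ev_lg c hc1' p)
  refine ⟨16 * p, c ^ (16 * p), max a0 (max a1 (max a2 a3)), by positivity,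
    fun a ha b hb hb2 lam hanti hpos hsum => ?_⟩
  have ha0 : a0 ≤ a := (le_max_left _ _).trans ha
  have ha' : max a1 (max a2 a3) ≤ a := (le_max_right _ _).trans ha
  have ha1 : a1 ≤ a := (le_max_left _ _).trans ha'
  have ha'' : max a2 a3 ≤ a := (le_max_right _ _).trans ha'
  have ha2 : a2 ≤ a := (le_max_left _ _).trans ha''
  have ha3 : a3 ≤ a := (le_max_right _ _).trans ha''
  have hXa := h3 a ha3
  have hl := one_le_lg a
  obtain ⟨X, hX⟩ : ∃ X : ℝ, X = c * (1 + Real.log a) := ⟨_, rfl⟩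
  rw [← hX] at hXa
  have hX1 : 1 ≤ X := by rw [hX]; nlinarith
  have hX0 : 0 < X := by linarith
  have hA0 : (0 : ℝ) ≤ a := Nat.cast_nonneg a
  have hXc : ∀ d : ℝ, d ≤ c → d * (1 + Real.log a) ≤ X := fun d hd => by
    rw [hX]
    exact mul_le_mul_of_nonneg_right hd (by linarith)
  have hbX : (a : ℝ) * X ^ (16 * p) ≤ b := by
    refine le_trans (le_of_eq ?_) hb
    rw [hX, mul_pow]
    ring
  have hbq : ∀ q : ℕ, q ≤ 16 * p → (a : ℝ) * X ^ q ≤ b := fun q hq =>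
    (mul_le_mul_of_nonneg_left (pow_le_pow_right₀ hX1 hq) hA0).trans hbX
  have hXq : ∀ q : ℕ, q ≤ p → X ^ q ≤ a := fun q hq => (pow_le_pow_right₀ hX1 hq).trans hXa
  have hb3 : b ≤ a ^ 2 := by omega
  rcases le_total ((a : ℝ) ^ 2 * X ^ 2) (lam 1 : ℝ) with hl1 | hl1
  · exact h2 a ha2 X (hXc c2 hcc2) (hXq p2 (by omega)) b (hbq p2 (by omega)) hb3 lam hanti hpos
      hsum hl1
  · rcases h1 a ha1 X (hXc c1 hcc1) (hXq p1 (by omega)) b (hbq p1 (by omega)) hb3 lam hanti hpos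
      hsum hl1 with h4 | h4
    · exact h4
    · apply h0 a ha0 (X ^ p) ?_ b ?_ hb2 lam hanti hpos hsum ?_ ?_
      · refine (hXc c0 hcc0).trans ?_
        calc X = X ^ 1 := (pow_one X).symm
          _ ≤ X ^ p := pow_le_pow_right₀ hX1 (by omega)
      · rw [← pow_mul, mul_comm p 16]
        exact hbX
      · refine h4.trans (mul_le_mul_of_nonneg_left (pow_le_pow_right₀ hX1 (by omega)) hA0)
      · refine hl1.trans (mul_le_mul_of_nonneg_left ?_ (by positivity))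
        rw [← pow_mul]
        exact pow_le_pow_right₀ hX1 (by omega)

theorem mono_hyp {a b : ℕ} {C C' : ℝ} {c c' : ℕ} (hC : C ≤ C') (hc : c ≤ c') (h0 : 0 ≤ C')
    (hb : C' * (a : ℝ) * (1 + Real.log a) ^ c' ≤ b) :
    C * (a : ℝ) * (1 + Real.log a) ^ c ≤ b := by
  have hl := one_le_lg a
  refine le_trans ?_ hb
  exact mul_le_mul (mul_le_mul_of_nonneg_right hC (Nat.cast_nonneg a))
    (pow_le_pow_right₀ hl hc) (by positivity) (by positivity)

/-- All partitions with at most `n` rows. -/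
theorem rows (H : CoreQ) (n : ℕ) : ∃ (C : ℝ) (c : ℕ), 3 ≤ C ∧ ∀ a b : ℕ,
    C * (a : ℝ) * (1 + Real.log a) ^ c ≤ b → ∀ (m : ℕ) (lam : Fin m → ℕ),
      (univ.filter fun i => lam i ≠ 0).card ≤ n →
      plethMult a b m lam ≤ plethMult b a m lam := by
  -- one constant for all numbers of positive rows up to `n`
  have hC : ∃ (C : ℝ) (c : ℕ), 3 ≤ C ∧ ∀ k, k < n → ∀ a b : ℕ,
      C * (a : ℝ) * (1 + Real.log a) ^ c ≤ b →
      ∀ lam : Fin (k + 3) → ℕ, Antitone lam → (∀ i, 0 < lam i) → ∑ i, lam i = a * b →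
      plethMult a b (k + 3) lam ≤ plethMult b a (k + 3) lam := by
    induction n with
    | zero => exact ⟨3, 0, le_rfl, fun k hk => absurd hk (Nat.not_lt_zero k)⟩
    | succ n ih =>
      obtain ⟨C, c, hC, h1⟩ := ih
      obtain ⟨c', C', a0, hC', h2⟩ := H n
      have hM : (0 : ℝ) ≤ max C (max C' a0) := by
        have := le_max_left C (max C' (a0 : ℝ))
        linarith
      refine ⟨max C (max C' a0), max c c', hC.trans (le_max_left _ _),
        fun k hk a b hb lam h3 h4 h5 => ?_⟩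
      rcases Nat.lt_or_ge k n with hkn | hkn
      · exact h1 k hkn a b (mono_hyp (le_max_left _ _) (le_max_left _ _) hM hb) lam h3 h4 h5
      · obtain rfl : k = n := by omega
        rcases Nat.lt_or_ge a a0 with ha | ha
        · apply H463.big_stmt
          have h7 := mono_hyp (C := (a0 : ℝ)) (c := 0) ((le_max_right C' (a0 : ℝ)).trans
            (le_max_right C _)) (Nat.zero_le _) hM hb
          rw [pow_zero, mul_one] at h7
          have h8 : a0 * a ≤ b := by exact_mod_cast h7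
          have h9 : (a - 1) ^ 2 ≤ a0 * a := by
            rw [pow_two]
            exact Nat.mul_le_mul (by omega) (by omega)
          exact h9.trans h8
        · rcases Nat.lt_or_ge b (a ^ 2) with hba | hba
          · exact h2 a ha b (mono_hyp ((le_max_left C' (a0 : ℝ)).trans (le_max_right C _))
              (le_max_right _ _) hM hb) hba lam h3 h4 (by rw [h5, mul_comm])
          · apply H463.big_stmt
            exact (Nat.pow_le_pow_left (Nat.sub_le a 1) 2).trans hba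
  obtain ⟨C, c, hC1, hC2⟩ := hC
  refine ⟨C, c, hC1, fun a b hb m lam hcard => ?_⟩
  rcases Nat.eq_zero_or_pos a with ha0 | ha0
  · apply H463.big_stmt
    rw [ha0]
    simp
  have hA : (1 : ℝ) ≤ a := by exact_mod_cast ha0
  have h3a : 3 * a ≤ b := by
    have h1 : (3 : ℝ) * a ≤ b := by
      have h2 := mono_hyp (C := (3 : ℝ)) (c := 0) hC1 (Nat.zero_le _) (by linarith) hb
      rwa [pow_zero, mul_one] at h2
    exact_mod_cast h1
  refine reduce (a := a) (b := b) (n := n) (fun _ => True) ?_ m lam hcard trivial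
  intro k hk mu hmu hpos hsum _
  rcases Nat.lt_or_ge k 3 with h3 | h3
  · apply H310.WG.w_all 0 mu
    have h4 : cells 2 mu = 0 := by
      unfold cells
      apply Finset.sum_eq_zero
      intro i _
      rw [if_neg]
      have h5 := i.2
      intro h6
      exact absurd h6 (by omega)
    rw [h4]
    have h5 : ((3 * a : ℕ) : ℝ) ≤ b := by exact_mod_cast h3a
    push_cast at h5
    simpa using h5
  · obtain ⟨j, hj⟩ := Nat.exists_eq_add_of_le' h3
    subst hj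
    exact hC2 j (by omega) a b hb mu hmu hpos hsum

/-- **Foulkes' conjecture in bounded dimension for `b ≥ C a (1 + log a) ^ c`.** -/
theorem quasi_rows (H : CoreQ) (n : ℕ) : ∃ (C : ℝ) (c : ℕ), ∀ a b : ℕ,
    C * (a : ℝ) * (1 + Real.log a) ^ c ≤ b →
      (∀ (V : Type u) [AddCommGroup V] [Module ℂ V] [FiniteDimensional ℂ V],
        Module.finrank ℂ V ≤ n →
        ∃ Ψ : Sym[ℂ]^a (Sym[ℂ]^b V) →ₗ[ℂ] Sym[ℂ]^b (Sym[ℂ]^a V),
          (∀ g : V →ₗ[ℂ] V, Ψ ∘ₗ symMap a (symMap b g) = symMap b (symMap a g) ∘ₗ Ψ) ∧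
          Function.Injective Ψ) ∧
      ∀ (m : ℕ) (lam : Fin m → ℕ), (univ.filter fun i => lam i ≠ 0).card ≤ n →
        plethMult a b m lam ≤ plethMult b a m lam := by
  obtain ⟨C, c, _, hC⟩ := rows H n
  refine ⟨C, c, fun a b hb => ⟨?_, hC a b hb⟩⟩
  intro V _ _ _ hV
  exact injection_of_mult (fun N hN lam => hC a b hb N lam
    ((Finset.card_le_univ _).trans (by rw [Fintype.card_fin]; exact hN))) V hV

end Vale.Agent.P181.Z.H582.Q
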