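import Vale.Agent.P181.Z.H582.Wall
import Vale.Agent.P181.Z.H592.CovOf
import Vale.Agent.P181.H530.KHI

/-!
# The Pieri step inside the kernel from highest weight covariants
-/

set_option autoImplicit false

namespace Vale.Agent.P181.Z.H582

open Finset Module MvPolynomial
open Vale.Agent.P181 Vale.Agent.P181.H280 Vale.Agent.P181.Z463
open Vale.Agent.P181.Z.H592 Vale.Agent.P181.H530.Torus Vale.Agent.P181.H530.KHI

/-- Highest weight covariants for the rows `1, …, j + 1` of `ℂ^(n+3)`: `j + 1` highest weight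
vectors of degree `B j` and weight `(*; c j + 1, c j, …, c j; 0, …)` with independent covariant
vectors. -/
def CovH (n a : ℕ) (B c : ℕ → ℕ) : Prop :=
  ∀ j, 1 ≤ j → (hj : j < n + 2) → ∃ (nu : Fin (n + 3) → ℕ) (l : Fin (j + 1) → A (n + 3)),
    (∀ r, l r ∈ HA (n + 3) (B j) a nu) ∧ nu 1 = c j + 1 ∧
    (∀ i : Fin (n + 3), 2 ≤ (i : ℕ) → (i : ℕ) ≤ j + 1 → nu i = c j) ∧
    (∀ i : Fin (n + 3), j + 1 < (i : ℕ) → nu i = 0) ∧
    Matrix.det (Matrix.of fun r s : Fin (j + 1) => cov (by omega : j + 1 < n + 3) (l r) s) ≠ 0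

theorem row_le {n : ℕ} (θ : Fin (n + 3) → ℕ)
    (hθ : ∀ l, (hl : l + 1 < n + 2) → θ ⟨l + 2, by omega⟩ ≤ θ ⟨l + 1, by omega⟩) :
    ∀ d m, (hm : 1 ≤ m) → (h : m + d < n + 3) → θ ⟨m + d, h⟩ ≤ θ ⟨m, by omega⟩ := by
  intro d
  induction d with
  | zero => intro m _ h; exact le_rfl
  | succ d ih =>
    intro m hm h
    have h1 := hθ (m + d - 1) (by omega)
    have e1 : (⟨m + d - 1 + 2, by omega⟩ : Fin (n + 3)) = ⟨m + (d + 1), by omega⟩ :=
      Fin.ext (by show m + d - 1 + 2 = m + (d + 1); omega)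
    have e2 : (⟨m + d - 1 + 1, by omega⟩ : Fin (n + 3)) = ⟨m + d, by omega⟩ :=
      Fin.ext (by show m + d - 1 + 1 = m + d; omega)
    rw [e1, e2] at h1
    exact h1.trans (ih m hm (by omega))

theorem sum_ind {m : ℕ} (q : ℕ) (hq : q < m) :
    ∑ i : Fin m, (if (i : ℕ) = q then 1 else 0) = 1 := by
  rw [Finset.sum_eq_single (⟨q, hq⟩ : Fin m)]
  · simp
  · intro i _ hi
    rw [if_neg]
    intro h
    exact hi (Fin.ext h)
  · intro h
    exact absurd (Finset.mem_univ _) h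

/-- The weight of the step. -/
theorem rho_eq {n j c : ℕ} (hj1 : 1 ≤ j) {nu : Fin (n + 3) → ℕ} (hnu1 : nu 1 = c + 1)
    (hnu2 : ∀ i : Fin (n + 3), 2 ≤ (i : ℕ) → (i : ℕ) ≤ j + 1 → nu i = c)
    (hnu3 : ∀ i : Fin (n + 3), j + 1 < (i : ℕ) → nu i = 0) (i : Fin (n + 3)) :
    rho (n + 2) c (nu 0) j i = (nu i - if (i : ℕ) = 1 then 1 else 0)
      + if (i : ℕ) = j + 1 then 1 else 0 := by
  unfold rho
  rcases Nat.eq_zero_or_pos (i : ℕ) with h0 | h0
  · have e : i = 0 := Fin.ext h0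
    subst e
    simp
  · rw [if_neg (by omega : ¬ (i : ℕ) = 0)]
    by_cases h1 : (i : ℕ) = 1
    · have e : nu i = c + 1 := by
        have : i = 1 := Fin.ext h1
        rw [this, hnu1]
      have h5 : ¬ (i : ℕ) = j + 1 := by omega
      have h6 : (i : ℕ) ≤ j := by omega
      simp only [if_pos h1, if_neg h5, if_pos h6, e]
      omega
    · simp only [if_neg h1]
      by_cases h2 : (i : ℕ) ≤ j
      · have h5 : ¬ (i : ℕ) = j + 1 := by omega
        have h7 := hnu2 i (by omega) (by omega)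
        simp only [if_neg h5, if_pos h2, h7]
        omega
      · by_cases h3 : (i : ℕ) = j + 1
        · have h7 := hnu2 i (by omega) (by omega)
          simp only [if_pos h3, if_neg h2, h7]
          omega
        · have h7 := hnu3 i (by omega)
          simp only [if_neg h3, if_neg h2, h7]

theorem total_cov {n a j B c : ℕ} (hj1 : 1 ≤ j) (hj : j < n + 2) {nu : Fin (n + 3) → ℕ}
    {l : Fin (j + 1) → A (n + 3)} (hl : ∀ r, l r ∈ HA (n + 3) B a nu) (hnu1 : nu 1 = c + 1)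
    (hnu2 : ∀ i : Fin (n + 3), 2 ≤ (i : ℕ) → (i : ℕ) ≤ j + 1 → nu i = c)
    (hnu3 : ∀ i : Fin (n + 3), j + 1 < (i : ℕ) → nu i = 0)
    (hdet : Matrix.det (Matrix.of fun r s : Fin (j + 1) =>
      cov (by omega : j + 1 < n + 3) (l r) s) ≠ 0) :
    nu 0 + ((j + 1) * c + 1) = a * B := by
  have hr0 : ∃ r, l r ≠ 0 := by
    by_contra hc
    push Not at hc
    apply hdet
    apply Matrix.det_eq_zero_of_column_eq_zero 0
    intro r
    show cov (by omega : j + 1 < n + 3) (l r) (0 : Fin (j + 1)) = 0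
    rw [hc r]
    simp [cov]
  obtain ⟨r, hr⟩ := hr0
  obtain ⟨d, hd⟩ := (MvPolynomial.ne_zero_iff).1 hr
  have h1 := (mem_HA.1 (hl r)).1 d hd
  have h2 := MS_total h1
  have h3 : ∀ i : Fin (n + 3), rho (n + 2) c (nu 0) j i + (if (i : ℕ) = 1 then 1 else 0)
      = nu i + (if (i : ℕ) = j + 1 then 1 else 0) := by
    intro i
    rw [rho_eq hj1 hnu1 hnu2 hnu3 i]
    by_cases h1 : (i : ℕ) = 1
    · have e : nu i = c + 1 := by
        have : i = 1 := Fin.ext h1
        rw [this, hnu1]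
      rw [if_pos h1, e]
      omega
    · rw [if_neg h1]
      omega
  have h4 : ∑ i, (rho (n + 2) c (nu 0) j i + (if (i : ℕ) = 1 then 1 else 0))
      = ∑ i : Fin (n + 3), (nu i + (if (i : ℕ) = j + 1 then 1 else 0)) :=
    Finset.sum_congr rfl fun i _ => h3 i
  rw [Finset.sum_add_distrib, Finset.sum_add_distrib, sum_ind 1 (by omega),
    sum_ind (j + 1) (by omega), sum_rho c (nu 0) j (by omega), h2] at h4
  have h5 : B * a = a * B := Nat.mul_comm _ _
  omega

/-- **PieH from CovH.** -/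
theorem pieH_of_cov {n a : ℕ} {B c : ℕ → ℕ} (h : CovH n a B c) : PieH n a B c := by
  intro j hj1 hj k b θ hθ hadm
  obtain ⟨nu, l, hl, hnu1, hnu2, hnu3, hdet⟩ := h j hj1 hj
  have hC := cov_of_hw (c := c j) (by omega : j + 1 < n + 3) l hl (fun _ => hnu1) hnu2 hdet
  have hs1 := H503S.s1 (k := k) (N := b) (θ := θ) hC
    (by
      intro q hq1 hq2 i hi
      have h1 := row_le θ hθ (j - q) q hq1 (by omega)
      have e1 : i = ⟨j + 1, by omega⟩ := Fin.ext hi
      have e2 : (⟨(q : ℕ) + (j - q), by omega⟩ : Fin (n + 3)) = ⟨j, by omega⟩ :=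
        Fin.ext (by show (q : ℕ) + (j - q) = j; omega)
      rw [e2] at h1
      rw [e1]
      exact hadm.trans h1)
    (IS (n + 3) a) (fun s i f hf => E_mem_IK s i hf)
    (fun f hf g => Ideal.mul_mem_right g _ hf)
  have htot := total_cov hj1 hj hl hnu1 hnu2 hnu3 hdet
  have hnu0 : nu 0 = a * B j - ((j + 1) * c j + 1) := by omega
  have hfin : (fun i : Fin (n + 3) => θ i + k * ((nu i - if (i : ℕ) = 1 then 1 else 0)
      + if (i : ℕ) = j + 1 then 1 else 0))
      = θ + k • rho (n + 2) (c j) (a * B j - ((j + 1) * c j + 1)) j := by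
    funext i
    rw [← hnu0, Pi.add_apply, Pi.smul_apply, smul_eq_mul, rho_eq hj1 hnu1 hnu2 hnu3 i]
  rw [hfin, ← finrank_KH_eq, ← finrank_KH_eq] at hs1
  refine hs1.trans (Nat.mul_le_mul_right _ ?_)
  exact Nat.pow_le_pow_right (by omega) (by omega)

/-- The bound `hcB` of the run follows from CovH. -/
theorem hcB_of_cov {n a : ℕ} {B c : ℕ → ℕ} (h : CovH n a B c) (j : ℕ) (hj1 : 1 ≤ j)
    (hj : j < n + 2) : (j + 1) * c j + 1 ≤ a * B j := by
  obtain ⟨nu, l, hl, hnu1, hnu2, hnu3, hdet⟩ := h j hj1 hj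
  have htot := total_cov hj1 hj hl hnu1 hnu2 hnu3 hdet
  omega

/-- Changing the value at `0`. -/
def B1 (B : ℕ → ℕ) : ℕ → ℕ
  | 0 => 1
  | j + 1 => B (j + 1)

/-- Changing the value at `0`. -/
def c1 (c : ℕ → ℕ) : ℕ → ℕ
  | 0 => 0
  | j + 1 => c (j + 1)

/-- The Pieri data in the form used by the run. -/
theorem exists_pieH {n : ℕ} (h : ∃ B c : ℕ → ℕ, ∃ a1 : ℕ, ∀ a, a1 ≤ a → CovH n a B c) :
    ∃ B c : ℕ → ℕ, ∃ a1 : ℕ, ∀ a, a1 ≤ a → PieH n a B c ∧
      ∀ j, j < n + 2 → (j + 1) * c j + 1 ≤ a * B j := by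
  obtain ⟨B, c, a1, h⟩ := h
  refine ⟨B1 B, c1 c, max a1 1, fun a ha => ⟨?_, ?_⟩⟩
  · intro j hj1 hj
    obtain ⟨j', rfl⟩ : ∃ j', j = j' + 1 := ⟨j - 1, by omega⟩
    exact pieH_of_cov (h a (le_of_max_le_left ha)) (j' + 1) hj1 hj
  · intro j hj
    rcases j with _ | j
    · have : 1 ≤ a := le_of_max_le_right ha
      simp only [B1, c1]
      omega
    · exact hcB_of_cov (h a (le_of_max_le_left ha)) (j + 1) (by omega) hj

end Vale.Agent.P181.Z.H582
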