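import Vale.Agent.P181.Z.H582.Quasi
import Vale.Agent.P181.Z.H503.CoreZ
import Vale.Agent.P181.H403.Z.TypeZ
import Vale.Agent.P181.Z.H59.FirstZ

set_option autoImplicit false

/-!
# P181 [QL]: all partitions with at most `n` rows for `b ≥ C a (1 + log a) ^ c`
-/

open scoped TensorProduct

universe u

open Finset

namespace Vale.Agent.P181.Z.H582.Q

open Vale.Agent.P181 Vale.Agent.P181.H280

theorem coreQ : CoreQ := coreQ_of (fun n => H503Z.coreZ n)
  (fun n => Vale.Agent.P181.H403.TypeZ.typeZ n) (fun n => H59F.firstZ n)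

/-- **Foulkes' conjecture in bounded dimension for `b ≥ C a (1 + log a) ^ c`.** -/
theorem quasi (n : ℕ) : ∃ (C : ℝ) (c : ℕ), ∀ a b : ℕ,
    C * (a : ℝ) * (1 + Real.log a) ^ c ≤ b →
      (∀ (V : Type u) [AddCommGroup V] [Module ℂ V] [FiniteDimensional ℂ V],
        Module.finrank ℂ V ≤ n →
        ∃ Ψ : Sym[ℂ]^a (Sym[ℂ]^b V) →ₗ[ℂ] Sym[ℂ]^b (Sym[ℂ]^a V),
          (∀ g : V →ₗ[ℂ] V, Ψ ∘ₗ symMap a (symMap b g) = symMap b (symMap a g) ∘ₗ Ψ) ∧
          Function.Injective Ψ) ∧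
      ∀ (m : ℕ) (lam : Fin m → ℕ), (univ.filter fun i => lam i ≠ 0).card ≤ n →
        plethMult a b m lam ≤ plethMult b a m lam :=
  quasi_rows coreQ n

end Vale.Agent.P181.Z.H582.Q
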