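import Mathlib
import Vale.Agent.P181.Z.H582.NT

/-!
# The mass of the multisets with a bounded number of letters
-/

namespace Vale.Agent.P181.Z.H582

open Finset

section gen
variable {α : Type*} [DecidableEq α]

/-- The finite set of the multisets over `L` with at most `N` letters. -/
def MN (L : Finset α) (N : ℕ) : Finset (Multiset α) :=
  (Finset.range (N + 1)).biUnion fun k => (L.sym k).image fun s : Sym α k => (s : Multiset α)

theorem mem_MN (L : Finset α) (N : ℕ) (s : Multiset α) :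
    s ∈ MN L N ↔ (∀ v ∈ s, v ∈ L) ∧ Multiset.card s ≤ N := by
  unfold MN
  rw [Finset.mem_biUnion]
  constructor
  · rintro ⟨k, hk, hs⟩
    rw [Finset.mem_image] at hs
    obtain ⟨u, hu, rfl⟩ := hs
    rw [Finset.mem_sym_iff] at hu
    refine ⟨fun v hv => hu v hv, ?_⟩
    rw [Finset.mem_range] at hk
    have : Multiset.card (u : Multiset α) = k := u.2
    omega
  · rintro ⟨h1, h2⟩
    refine ⟨Multiset.card s, Finset.mem_range.2 (by omega), ?_⟩
    rw [Finset.mem_image]
    refine ⟨Sym.mk s rfl, ?_, rfl⟩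
    rw [Finset.mem_sym_iff]
    intro v hv
    exact h1 v hv

/-- The box of all multisets with multiplicities at most `K`. -/
theorem exists_box (L : Finset α) (y : α → ℝ) (K : ℕ) :
    ∃ S : Finset (Multiset α), (∀ s ∈ S, ∀ v ∈ s, v ∈ L) ∧
      ∑ s ∈ S, (s.map y).prod = ∏ v ∈ L, ∑ k ∈ Finset.range (K + 1), y v ^ k := by
  induction L using Finset.induction_on with
  | empty =>
    refine ⟨{0}, ?_, by simp⟩
    intro s hs v hv
    rw [Finset.mem_singleton] at hs
    subst hs
    exact absurd hv (Multiset.notMem_zero v)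
  | insert v L hv ih =>
    obtain ⟨S', hS', hsum⟩ := ih
    have hcount : ∀ s ∈ S', Multiset.count v s = 0 := by
      intro s hs
      rw [Multiset.count_eq_zero]
      intro h
      exact hv (hS' s hs v h)
    have hinj : Set.InjOn (fun p : ℕ × Multiset α => Multiset.replicate p.1 v + p.2)
        (((Finset.range (K + 1)) ×ˢ S' : Finset (ℕ × Multiset α)) : Set (ℕ × Multiset α)) := by
      rintro ⟨k, s⟩ hp ⟨k', s'⟩ hp' h
      have hs := (Finset.mem_product.1 (Finset.mem_coe.1 hp)).2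
      have hs' := (Finset.mem_product.1 (Finset.mem_coe.1 hp')).2
      have h' : Multiset.replicate k v + s = Multiset.replicate k' v + s' := h
      have hc := congrArg (Multiset.count v) h'
      rw [Multiset.count_add, Multiset.count_add, Multiset.count_replicate_self,
        Multiset.count_replicate_self, hcount s hs, hcount s' hs', add_zero, add_zero] at hc
      subst hc
      rw [add_right_inj] at h'
      rw [h']
    refine ⟨((Finset.range (K + 1)) ×ˢ S').image
      (fun p : ℕ × Multiset α => Multiset.replicate p.1 v + p.2), ?_, ?_⟩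
    · intro s hs u hu
      rw [Finset.mem_image] at hs
      obtain ⟨p, hp, rfl⟩ := hs
      rw [Multiset.mem_add] at hu
      rcases hu with hu | hu
      · rw [Multiset.eq_of_mem_replicate hu]
        exact Finset.mem_insert_self v L
      · exact Finset.mem_insert_of_mem (hS' _ (Finset.mem_product.1 hp).2 u hu)
    · rw [Finset.sum_image hinj, Finset.prod_insert hv, Finset.sum_product, ← hsum,
        Finset.sum_mul]
      refine Finset.sum_congr rfl fun k _ => ?_
      rw [Finset.mul_sum]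
      refine Finset.sum_congr rfl fun s _ => ?_
      rw [Multiset.map_add, Multiset.prod_add, Multiset.map_replicate, Multiset.prod_replicate]

theorem tendsto_box (L : Finset α) (y : α → ℝ) (hy : ∀ v ∈ L, 0 ≤ y v ∧ y v < 1) :
    Filter.Tendsto (fun K : ℕ => ∏ v ∈ L, ∑ k ∈ Finset.range (K + 1), y v ^ k) Filter.atTop
      (nhds (∏ v ∈ L, (1 - y v)⁻¹)) := by
  refine tendsto_finset_prod L fun v hv => ?_
  have h := (hasSum_geometric_of_lt_one (hy v hv).1 (hy v hv).2).tendsto_sum_nat
  exact (Filter.tendsto_add_atTop_iff_nat 1).2 h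

omit [DecidableEq α] in
theorem prod_map_smul (y : α → ℝ) (z : ℝ) (s : Multiset α) :
    (s.map fun v => z * y v).prod = z ^ (Multiset.card s) * (s.map y).prod := by
  induction s using Multiset.induction_on with
  | empty => simp
  | cons v s ih =>
    rw [Multiset.map_cons, Multiset.prod_cons, ih, Multiset.map_cons, Multiset.prod_cons,
      Multiset.card_cons, pow_succ]
    ring

/-- **Truncation.** The total mass is at most the mass of the multisets with at most `N` letters
plus an exponentially small remainder. -/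
theorem trunc_gen (L : Finset α) (y : α → ℝ) (z : ℝ) (hz : 1 ≤ z)
    (hy : ∀ v ∈ L, 0 ≤ y v ∧ z * y v < 1) (N : ℕ) :
    ∏ v ∈ L, (1 - y v)⁻¹ ≤ ∑ s ∈ MN L N, (s.map y).prod
      + (z ^ (N + 1))⁻¹ * ∏ v ∈ L, (1 - z * y v)⁻¹ := by
  have hy1 : ∀ v ∈ L, 0 ≤ y v ∧ y v < 1 := by
    intro v hv
    have h := hy v hv
    refine ⟨h.1, ?_⟩
    nlinarith [h.1, h.2]
  refine le_of_tendsto' (tendsto_box L y hy1) fun K => ?_
  obtain ⟨S, hS, hsum⟩ := exists_box L y K
  rw [← hsum]
  have hz0 : 0 < z := by linarith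
  have hnn : ∀ s ∈ S, 0 ≤ (s.map y).prod := fun s hs =>
    prod_map_nonneg y s fun v hv => (hy1 v (hS s hs v hv)).1
  rw [← Finset.sum_filter_add_sum_filter_not S (fun s => Multiset.card s ≤ N)]
  apply add_le_add
  · apply Finset.sum_le_sum_of_subset_of_nonneg
    · intro s hs
      rw [Finset.mem_filter] at hs
      exact (mem_MN L N s).2 ⟨hS s hs.1, hs.2⟩
    · intro s hs _
      exact prod_map_nonneg y s fun v hv => (hy1 v (((mem_MN L N s).1 hs).1 v hv)).1
  · have h1 : ∑ s ∈ S.filter (fun s => ¬ Multiset.card s ≤ N), (s.map fun v => z * y v).prod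
        ≤ ∏ v ∈ L, (1 - z * y v)⁻¹ := by
      apply mgf_le L (fun v => z * y v)
      · intro v hv
        exact ⟨mul_nonneg hz0.le (hy v hv).1, (hy v hv).2⟩
      · intro s hs v hv
        exact hS s (Finset.mem_filter.1 hs).1 v hv
    have h2 : ∑ s ∈ S.filter (fun s => ¬ Multiset.card s ≤ N), (s.map y).prod
        ≤ (z ^ (N + 1))⁻¹ * ∑ s ∈ S.filter (fun s => ¬ Multiset.card s ≤ N),
            (s.map fun v => z * y v).prod := by
      rw [Finset.mul_sum]
      refine Finset.sum_le_sum fun s hs => ?_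
      rw [Finset.mem_filter, not_le] at hs
      rw [prod_map_smul, ← mul_assoc]
      have hp := hnn s hs.1
      have h3 : z ^ (N + 1) ≤ z ^ (Multiset.card s) := pow_le_pow_right₀ hz hs.2
      have h4 : 1 ≤ (z ^ (N + 1))⁻¹ * z ^ (Multiset.card s) := by
        rw [inv_mul_eq_div, le_div_iff₀ (pow_pos hz0 _), one_mul]
        exact h3
      nlinarith
    calc _ ≤ _ := h2
      _ ≤ _ := mul_le_mul_of_nonneg_left h1 (inv_nonneg.2 (pow_nonneg hz0.le _))

omit [DecidableEq α] in
/-- Comparison of the tilted partition function with the plain one. -/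
theorem tilt_le (L : Finset α) (y : α → ℝ) (z : ℝ) (hz : 1 ≤ z)
    (hy : ∀ v ∈ L, 0 ≤ y v ∧ z * y v < 1) :
    ∏ v ∈ L, (1 - z * y v)⁻¹
      ≤ Real.exp ((z - 1) * ∑ v ∈ L, y v / (1 - z * y v)) * ∏ v ∈ L, (1 - y v)⁻¹ := by
  rw [Finset.mul_sum, Real.exp_sum, ← Finset.prod_mul_distrib]
  refine Finset.prod_le_prod (fun v hv => inv_nonneg.2 (by linarith [(hy v hv).2]))
    fun v hv => ?_
  have h := hy v hv
  have p1 : 0 < 1 - z * y v := by linarith [h.2]
  have p2 : 0 < 1 - y v := by nlinarith [h.1, h.2]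
  have e : (1 - z * y v)⁻¹ = (1 + (z - 1) * (y v / (1 - z * y v))) * (1 - y v)⁻¹ := by
    field_simp
    ring
  rw [e]
  refine mul_le_mul_of_nonneg_right ?_ (inv_nonneg.2 p2.le)
  linarith [Real.add_one_le_exp ((z - 1) * (y v / (1 - z * y v)))]

end gen

section letters
variable {ι : Type*} [Fintype ι] [DecidableEq ι]

/-- **[TRUNC]** (form (T)): the multisets with at most `N` letters carry the whole mass up to an
exponentially small part. -/
theorem trunc (L : Finset (ι → ℕ)) (x : ι → ℝ) (τ : ℝ) (hτ : 0 ≤ τ)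
    (hL : ∀ v ∈ L, τ < dotp x v) (N : ℕ) :
    (1 - Real.exp (-(τ * ((N : ℝ) + 1)) + (Real.exp τ - 1) * ∑ v ∈ L,
        Real.exp (-dotp x v) / (1 - Real.exp τ * Real.exp (-dotp x v)))) * ZL L x
      ≤ ∑ s ∈ MN L N, Real.exp (-dotp x s.sum) := by
  have hz : 1 ≤ Real.exp τ := Real.one_le_exp hτ
  have hy : ∀ v ∈ L, 0 ≤ Real.exp (-dotp x v) ∧ Real.exp τ * Real.exp (-dotp x v) < 1 := by
    intro v hv
    refine ⟨(Real.exp_pos _).le, ?_⟩
    rw [← Real.exp_add, Real.exp_lt_one_iff]
    linarith [hL v hv]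
  have h1 := trunc_gen L (fun v => Real.exp (-dotp x v)) (Real.exp τ) hz hy N
  have h2 := tilt_le L (fun v => Real.exp (-dotp x v)) (Real.exp τ) hz hy
  have h3 : (Real.exp τ ^ (N + 1))⁻¹ = Real.exp (-(τ * ((N : ℝ) + 1))) := by
    rw [← Real.exp_nat_mul, ← Real.exp_neg]
    congr 1
    push_cast
    ring
  have h4 : ∑ s ∈ MN L N, (s.map fun v => Real.exp (-dotp x v)).prod
      = ∑ s ∈ MN L N, Real.exp (-dotp x s.sum) :=
    Finset.sum_congr rfl fun s _ => prod_exp_dotp x s
  rw [h4, h3] at h1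
  have h5 : Real.exp (-(τ * ((N : ℝ) + 1))) * ∏ v ∈ L, (1 - Real.exp τ * Real.exp (-dotp x v))⁻¹
      ≤ Real.exp (-(τ * ((N : ℝ) + 1)) + (Real.exp τ - 1) * ∑ v ∈ L,
        Real.exp (-dotp x v) / (1 - Real.exp τ * Real.exp (-dotp x v))) * ZL L x := by
    rw [Real.exp_add, mul_assoc]
    exact mul_le_mul_of_nonneg_left h2 (Real.exp_pos _).le
  have h6 : ZL L x = ∏ v ∈ L, (1 - Real.exp (-dotp x v))⁻¹ := rfl
  rw [← h6] at h1
  linarith

/-- Half of the mass, when the exponent is at most `-1`. -/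
theorem trunc_half (L : Finset (ι → ℕ)) (x : ι → ℝ) (τ : ℝ) (hτ : 0 ≤ τ)
    (hL : ∀ v ∈ L, τ < dotp x v) (N : ℕ)
    (hN : (Real.exp τ - 1) * ∑ v ∈ L,
        Real.exp (-dotp x v) / (1 - Real.exp τ * Real.exp (-dotp x v)) + 1 ≤ τ * ((N : ℝ) + 1)) :
    ZL L x ≤ 2 * ∑ s ∈ MN L N, Real.exp (-dotp x s.sum) := by
  have h := trunc L x τ hτ hL N
  have hZ : 0 < ZL L x := ZL_pos L x fun v hv => lt_of_le_of_lt hτ (hL v hv)
  have he : Real.exp (-(τ * ((N : ℝ) + 1)) + (Real.exp τ - 1) * ∑ v ∈ L,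
        Real.exp (-dotp x v) / (1 - Real.exp τ * Real.exp (-dotp x v))) ≤ 1 / 2 := by
    have h1 : Real.exp (-(τ * ((N : ℝ) + 1)) + (Real.exp τ - 1) * ∑ v ∈ L,
        Real.exp (-dotp x v) / (1 - Real.exp τ * Real.exp (-dotp x v))) ≤ Real.exp (-1) := by
      rw [Real.exp_le_exp]
      linarith
    have h2 : Real.exp (-1) ≤ 1 / 2 := by
      have h3 : (2 : ℝ) ≤ Real.exp 1 := by
        have := Real.add_one_le_exp (1 : ℝ)
        linarith
      rw [Real.exp_neg, inv_le_comm₀ (Real.exp_pos _) (by norm_num)]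
      norm_num
      exact h3
    linarith
  nlinarith

end letters

end Vale.Agent.P181.Z.H582
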