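import Mathlib

/-!
# (C6): counting configurations of letters up to permutation
-/

namespace Vale.Agent.P181.Z.H582

open Finset

/-- Two functions with the same multiset of values differ by a permutation. -/
theorem exists_perm_of_map_eq {α β : Type*} [Fintype α] [DecidableEq α] [DecidableEq β]
    (f g : α → β)
    (h : (Finset.univ : Finset α).val.map f = (Finset.univ : Finset α).val.map g) :
    ∃ σ : Equiv.Perm α, ∀ x, g (σ x) = f x := by
  have hc : ∀ b : β, Nonempty ({x // f x = b} ≃ {x // g x = b}) := by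
    intro b
    refine ⟨Fintype.equivOfCardEq ?_⟩
    have h1 := congrArg (Multiset.count b) h
    rw [Multiset.count_map, Multiset.count_map] at h1
    rw [Fintype.card_subtype, Fintype.card_subtype]
    have e : ∀ k : α → β, (Finset.univ.filter (fun x => k x = b)).card
        = Multiset.card ((Finset.univ : Finset α).val.filter (fun x => b = k x)) := by
      intro k
      rw [Finset.card_def, Finset.filter_val]
      congr 1
      apply Multiset.filter_congr
      intro x _
      exact eq_comm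
    rw [e f, e g]
    exact h1
  have e : ∀ b : β, {x // f x = b} ≃ {x // g x = b} := fun b => (hc b).some
  refine ⟨Equiv.ofFiberEquiv e, fun x => ?_⟩
  exact Equiv.ofFiberEquiv_map e x

variable {N m : ℕ}

/-- The multiset of the nonzero letters of a configuration. -/
def nzM (v : Fin N → Fin m → ℕ) : Multiset (Fin m → ℕ) :=
  ((Finset.univ : Finset (Fin N)).val.map v).filter (fun u => u ≠ 0)

theorem full_eq (v : Fin N → Fin m → ℕ) :
    (Finset.univ : Finset (Fin N)).val.map v
      = nzM v + Multiset.replicate (N - Multiset.card (nzM v)) 0 := by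
  classical
  have h := Multiset.filter_add_not (fun u : Fin m → ℕ => u ≠ 0)
    ((Finset.univ : Finset (Fin N)).val.map v)
  have h2 : ((Finset.univ : Finset (Fin N)).val.map v).filter (fun u => ¬ u ≠ 0)
      = Multiset.replicate (((Finset.univ : Finset (Fin N)).val.map v).count 0) 0 := by
    rw [← Multiset.filter_eq']
    apply Multiset.filter_congr
    intro u _
    exact not_not
  rw [h2] at h
  have h3 := congrArg Multiset.card h
  rw [Multiset.card_add, Multiset.card_replicate, Multiset.card_map] at h3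
  have h4 : Multiset.card (Finset.univ : Finset (Fin N)).val = N := by
    rw [Finset.card_val]; simp
  rw [h4] at h3
  have h5 : ((Finset.univ : Finset (Fin N)).val.map v).count 0 = N - Multiset.card (nzM v) := by
    have : Multiset.card (nzM v)
        = Multiset.card (((Finset.univ : Finset (Fin N)).val.map v).filter (fun u => u ≠ 0)) := rfl
    omega
  rw [h5] at h
  exact h.symm

theorem exists_perm_of_nzM (v w : Fin N → Fin m → ℕ) (h : nzM v = nzM w) :
    ∃ σ : Equiv.Perm (Fin N), ∀ j, w (σ j) = v j := by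
  classical
  apply exists_perm_of_map_eq
  rw [full_eq v, full_eq w, h]

theorem sum_nzM (v : Fin N → Fin m → ℕ) : (nzM v).sum = ∑ j, v j := by
  classical
  have h := congrArg Multiset.sum (full_eq v)
  rw [Multiset.sum_add, Multiset.sum_replicate, smul_zero, add_zero] at h
  rw [← h]
  rfl

theorem card_filter_nzM (v : Fin N → Fin m → ℕ) (J : (Fin m → ℕ) → Prop) [DecidablePred J]
    (hJ : ∀ u, J u → u ≠ 0) :
    Multiset.card ((nzM v).filter J) = (Finset.univ.filter fun j => J (v j)).card := by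
  classical
  unfold nzM
  rw [Multiset.filter_filter, Multiset.filter_map, Multiset.card_map, Finset.card_def,
    Finset.filter_val]
  congr 1
  apply Multiset.filter_congr
  intro j _
  constructor
  · intro h
    exact h.1
  · intro h
    exact ⟨h, hJ _ h⟩

theorem mem_nzM (v : Fin N → Fin m → ℕ) (u : Fin m → ℕ) :
    u ∈ nzM v ↔ (∃ j, v j = u) ∧ u ≠ 0 := by
  unfold nzM
  rw [Multiset.mem_filter, Multiset.mem_map]
  constructor
  · rintro ⟨⟨j, -, hj⟩, hu⟩
    exact ⟨⟨j, hj⟩, hu⟩
  · rintro ⟨⟨j, hj⟩, hu⟩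
    exact ⟨⟨j, Finset.mem_univ_val j, hj⟩, hu⟩

/-- The multisets of nonzero letters with a given sum form a finite set. -/
theorem finite_ms (lb : Fin m → ℕ) (P : (Fin m → ℕ) → Prop) :
    {M : Multiset (Fin m → ℕ) | (∀ v ∈ M, v ≠ 0 ∧ P v) ∧ M.sum = lb}.Finite := by
  classical
  -- letters lie in the box below `lb`, and there are at most `∑ lb` of them
  set L : Finset (Fin m → ℕ) := Fintype.piFinset fun i => Finset.range (lb i + 1) with hL
  set T : Finset (Multiset (Fin m → ℕ)) := (Finset.range ((∑ i, lb i) + 1)).biUnion fun k =>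
    (L.sym k).image fun s : Sym (Fin m → ℕ) k => (s : Multiset (Fin m → ℕ)) with hT
  apply Set.Finite.subset T.finite_toSet
  rintro M ⟨h1, h2⟩
  have hle : ∀ v ∈ M, ∀ i, v i ≤ lb i := by
    intro v hv i
    have h3 : v ≤ M.sum := Multiset.le_sum_of_mem hv
    rw [h2] at h3
    exact h3 i
  have hcard : Multiset.card M ≤ ∑ i, lb i := by
    have h4 : ∀ M : Multiset (Fin m → ℕ), (∀ v ∈ M, v ≠ 0) →
        Multiset.card M ≤ ∑ i, M.sum i := by
      intro M
      induction M using Multiset.induction_on with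
      | empty => intro _; simp
      | cons v M ih =>
        intro hM
        have h5 := ih fun u hu => hM u (Multiset.mem_cons_of_mem hu)
        have h6 : 1 ≤ ∑ i, v i := by
          by_contra hc
          have h7 : ∑ i, v i = 0 := by omega
          rw [Finset.sum_eq_zero_iff] at h7
          exact hM v (Multiset.mem_cons_self v M) (funext fun i => h7 i (Finset.mem_univ i))
        rw [Multiset.card_cons, Multiset.sum_cons]
        simp only [Pi.add_apply, Finset.sum_add_distrib]
        omega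
    have h5 := h4 M fun v hv => (h1 v hv).1
    rw [h2] at h5
    exact h5
  rw [hT, Finset.mem_coe, Finset.mem_biUnion]
  refine ⟨Multiset.card M, Finset.mem_range.2 (by omega), ?_⟩
  rw [Finset.mem_image]
  refine ⟨Sym.mk M rfl, ?_, rfl⟩
  rw [Finset.mem_sym_iff]
  intro v hv
  rw [hL, Fintype.mem_piFinset]
  intro i
  rw [Finset.mem_range]
  have := hle v hv i
  omega

/-- **(C6)** in general form: the letters are counted with a marking `J`. -/
theorem c6_gen {K : Type*} [AddCommGroup K] [Module ℂ K] [FiniteDimensional ℂ K]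
    (a t : ℕ) (lb : Fin m → ℕ) (J : (Fin m → ℕ) → Prop) [DecidablePred J]
    (hJ : ∀ u, J u → u ≠ 0)
    (c : (Fin N → Fin m → ℕ) → (K →ₗ[ℂ] ℂ))
    (hperm : ∀ (σ : Equiv.Perm (Fin N)) (v : Fin N → Fin m → ℕ), c (fun j => v (σ j)) = c v)
    (hne : ∀ v, c v ≠ 0 → (∀ j, ∑ i, v j i ≤ a) ∧ ∀ i, ∑ j, v j i = lb i)
    (hinj : ∀ x : K, (∀ v, t ≤ (Finset.univ.filter fun j => J (v j)).card → c v x = 0) → x = 0) :
    Module.finrank ℂ K ≤ Set.ncard {M : Multiset (Fin m → ℕ) |
      (∀ v ∈ M, v ≠ 0 ∧ ∑ i, v i ≤ a) ∧ M.sum = lb ∧ t ≤ Multiset.card (M.filter J)} := by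
  classical
  set S : Set (Multiset (Fin m → ℕ)) := {M : Multiset (Fin m → ℕ) |
      (∀ v ∈ M, v ≠ 0 ∧ ∑ i, v i ≤ a) ∧ M.sum = lb ∧ t ≤ Multiset.card (M.filter J)} with hS
  have hfin : S.Finite := by
    apply (finite_ms lb (fun v => ∑ i, v i ≤ a)).subset
    rintro M ⟨h1, h2, -⟩
    exact ⟨h1, h2⟩
  haveI : Fintype S := hfin.fintype
  -- a representative of every multiset
  set r : S → (Fin N → Fin m → ℕ) := fun M =>
    if h : ∃ v : Fin N → Fin m → ℕ, nzM v = (M : Multiset (Fin m → ℕ)) then h.choose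
    else fun _ => 0 with hr
  have hr1 : ∀ (M : S) (v : Fin N → Fin m → ℕ), nzM v = (M : Multiset (Fin m → ℕ)) →
      nzM (r M) = (M : Multiset (Fin m → ℕ)) := by
    intro M v hv
    have hex : ∃ v : Fin N → Fin m → ℕ, nzM v = (M : Multiset (Fin m → ℕ)) := ⟨v, hv⟩
    have e : r M = hex.choose := by
      rw [hr]
      simp only [dif_pos hex]
    rw [e]
    exact hex.choose_spec
  let Φ : K →ₗ[ℂ] (S → ℂ) := LinearMap.pi fun M => c (r M)
  have hΦ : Function.Injective Φ := by
    rw [← LinearMap.ker_eq_bot, LinearMap.ker_eq_bot']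
    intro x hx
    apply hinj x
    intro v hv
    by_cases h0 : c v = 0
    · rw [h0, LinearMap.zero_apply]
    · obtain ⟨h1, h2⟩ := hne v h0
      have hM : nzM v ∈ S := by
        rw [hS, Set.mem_setOf_eq]
        refine ⟨?_, ?_, ?_⟩
        · intro u hu
          obtain ⟨⟨j, rfl⟩, hu0⟩ := (mem_nzM v u).1 hu
          exact ⟨hu0, h1 j⟩
        · rw [sum_nzM]
          funext i
          rw [Finset.sum_apply]
          exact h2 i
        · rw [card_filter_nzM v J hJ]
          exact hv
      have h3 : c (r ⟨nzM v, hM⟩) x = 0 := congrFun hx ⟨nzM v, hM⟩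
      obtain ⟨σ, hσ⟩ := exists_perm_of_nzM (r ⟨nzM v, hM⟩) v (hr1 ⟨nzM v, hM⟩ v rfl)
      have h4 : (fun j => v (σ j)) = r ⟨nzM v, hM⟩ := funext hσ
      rw [← hperm σ v, h4]
      exact h3
  have h5 := LinearMap.finrank_le_finrank_of_injective hΦ
  rw [Module.finrank_pi, ← Nat.card_eq_fintype_card] at h5
  exact h5

/-- **(C6)** with the letters of rows from the second one on; the marked letters have a cell in the
rows from the third one on. -/
theorem c6 {n : ℕ} {K : Type*} [AddCommGroup K] [Module ℂ K] [FiniteDimensional ℂ K]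
    (a t : ℕ) (lb : Fin (n + 1) → ℕ)
    (c : (Fin N → Fin (n + 1) → ℕ) → (K →ₗ[ℂ] ℂ))
    (hperm : ∀ (σ : Equiv.Perm (Fin N)) (v : Fin N → Fin (n + 1) → ℕ),
      c (fun j => v (σ j)) = c v)
    (hne : ∀ v, c v ≠ 0 → (∀ j, ∑ i, v j i ≤ a) ∧ ∀ i, ∑ j, v j i = lb i)
    (hinj : ∀ x : K, (∀ v : Fin N → Fin (n + 1) → ℕ,
      t ≤ (Finset.univ.filter fun j => ∃ i : Fin n, v j i.succ ≠ 0).card → c v x = 0) → x = 0) :
    Module.finrank ℂ K ≤ Set.ncard {M : Multiset (Fin (n + 1) → ℕ) |
      (∀ v ∈ M, v ≠ 0 ∧ ∑ i, v i ≤ a) ∧ M.sum = lb ∧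
        t ≤ Multiset.card (M.filter fun u => ∃ i : Fin n, u i.succ ≠ 0)} := by
  refine c6_gen a t lb (fun u => ∃ i : Fin n, u i.succ ≠ 0) ?_ c hperm hne hinj
  rintro u ⟨i, hi⟩ h0
  apply hi
  rw [h0]
  rfl

end Vale.Agent.P181.Z.H582
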